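import Vale.Agent.P207.SPH.PubR
import Vale.Agent.P207.H118.GDefs
import Vale.Agent.P207.H566N.FinalN

/-!
# P207: curvature conditions along single rays, the final statement from the inequalities
-/

open scoped Manifold ContDiff ENNReal
open Bundle MeasureTheory Set Filter Topology

noncomputable section

namespace Vale.Agent.P207F.Ray

open Vale.Agent.P255 (RMetric innerAt coefIn Gam Riem IsGeo)
open Vale.Agent.P207F

variable {n : ℕ} {M : Type} [TopologicalSpace M] [ChartedSpace (EV n) M]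
  [IsManifold 𝓘(ℝ, EV n) ∞ M] [MeasurableSpace M]

/-- the inequalities which hold when the entropies are equal -/
def RayIneq (g : RMetric (EV n) M) : Prop :=
  hLiou (stdB n) g = hTop g → hTop g ≠ ⊤ ∧
    (∀ c, RicRay g c → (hTop g).toReal ^ 2 ≤ (n - 1) * c) ∧
    (∀ d, SqrtRay g d → d ≤ (hTop g).toReal) ∧
    (hTop g).toReal ^ 2 ≤ (n - 1) * -∫ v, ricUT g v ∂(liou (stdB n) g) ∧
    ∫ v, sqrtCurv g v ∂(liou (stdB n) g) ≤ (hTop g).toReal

variable {g : RMetric (EV n) M}

/-- `RayGap` excludes the equality of the entropies -/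
theorem ne_of_gap (hn : 1 ≤ n) (hI : RayIneq g) (h : RayGap g) :
    hLiou (stdB n) g ≠ hTop g := by
  intro he
  obtain ⟨-, h1, h2, h3, h4⟩ := hI he
  obtain ⟨c, d, hd, hcd, hc, hd'⟩ := h
  have hn' : (0 : ℝ) ≤ n - 1 := by
    have : (1 : ℝ) ≤ n := by exact_mod_cast hn
    linarith
  have e1 : (hTop g).toReal ^ 2 ≤ (n - 1) * c := by
    rcases hc with hc | hc
    · exact h1 c hc
    · exact h3.trans (mul_le_mul_of_nonneg_left hc hn')
  have e2 : d ≤ (hTop g).toReal := by
    rcases hd' with hd' | hd'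
    · exact h2 d hd'
    · exact hd'.trans h4
  have e3 : d ^ 2 ≤ (hTop g).toReal ^ 2 := pow_le_pow_left₀ hd.le e2 2
  linarith

omit [MeasurableSpace M] in
theorem ofReal_top (h : hTop g ≠ ⊤) : hTop g = ENNReal.ofReal (hTop g).toReal :=
  (ENNReal.ofReal_toReal h).symm

theorem above_pinched (hI : RayIneq g) (he : hLiou (stdB n) g = hTop g) (hn : 1 ≤ n)
    (h : RayAbove g) : EntropyPinched g := by
  obtain ⟨ht, h1, -, -, -⟩ := hI he
  obtain ⟨a, c, ha, hK, hc, hlt⟩ := h
  refine Or.inr (Or.inl ⟨a, ha, hK, ?_⟩)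
  have hn' : (1 : ℝ) ≤ n := by exact_mod_cast hn
  have h2 : (hTop g).toReal ^ 2 < (n * a) ^ 2 := by
    have h3 := h1 c hc
    have h4 : (n * a) ^ 2 = (n : ℝ) ^ 2 * a ^ 2 := by ring
    linarith
  have h5 : (hTop g).toReal < n * a := lt_of_pow_lt_pow_left₀ 2 (by positivity) h2
  rw [he, ofReal_top ht]
  exact (ENNReal.ofReal_lt_ofReal_iff (by positivity)).2 h5

theorem below_pinched (hN : NegCurvature g) (hI : RayIneq g)
    (he : hLiou (stdB n) g = hTop g) (hn : 2 ≤ n) (h : RayBelow g) : EntropyPinched g := by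
  obtain ⟨ht, -, h1, -, -⟩ := hI he
  obtain ⟨b, d, hb, hK, hd, hlt⟩ := h
  refine Or.inr (Or.inr (Or.inr ⟨hN, b, hb, hK, ?_⟩))
  have hn' : (2 : ℝ) ≤ n := by exact_mod_cast hn
  have h2 := h1 d hd
  have h3 : (2 * n - 3) * b < 2 * (hTop g).toReal := by linarith
  have h4 : 0 < 2 * (hTop g).toReal := lt_trans (mul_pos (by linarith) hb) h3
  have h5 : 2 * hTop g = ENNReal.ofReal (2 * (hTop g).toReal) := by
    rw [ENNReal.ofReal_mul (by norm_num), ENNReal.ofReal_toReal ht]
    norm_num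
  rw [h5]
  exact (ENNReal.ofReal_lt_ofReal_iff h4).2 h3

theorem ricci_pinched (hN : NegCurvature g) (hI : RayIneq g)
    (he : hLiou (stdB n) g = hTop g) (h : RayRicci g) :
    RicciEntropyPinched g := by
  obtain ⟨ht, -, h1, -, -⟩ := hI he
  obtain ⟨r, d, hd0, hK, hd, hlt⟩ := h
  refine ⟨hN, r, hK, ?_⟩
  have h2 := h1 d hd
  have h3 : d ^ 2 ≤ (hTop g).toReal ^ 2 := pow_le_pow_left₀ hd0.le h2 2
  have h0 : 0 < (hTop g).toReal := hd0.trans_le h2
  have h4 : (5 * n - 6) * r < 5 * (hTop g).toReal ^ 2 := by linarith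
  have h5 : 5 * hTop g ^ 2 = ENNReal.ofReal (5 * (hTop g).toReal ^ 2) := by
    rw [ENNReal.ofReal_mul (by norm_num), ENNReal.ofReal_pow ENNReal.toReal_nonneg,
      ENNReal.ofReal_toReal ht]
    norm_num
  rw [h5]
  exact (ENNReal.ofReal_lt_ofReal_iff (by positivity)).2 h4

variable [CompactSpace M] [T2Space M] [ConnectedSpace M] [BorelSpace M]

/-- **the final statement**, from the inequalities along the rays and the cores of the classes -/
theorem ray_final (hn : 3 ≤ n)
    (hray : ∀ g : RMetric (EV n) M, NegCurvature g → RayIneq g)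
    (hcore : ∀ g : RMetric (EV n) M, EntropyPinched g ∨ RicciEntropyPinched g → ∀ φ μ m,
      P207.IsGeoFlow g φ → P207.IsRiemVol g μ → P207.IsLiouville g μ m →
      P207.ksEntropy m (φ 1) = P207.topEntropy (φ 1) → ∃ κ, ConstCurvature g κ) :
    (∀ g : RMetric (EV n) M, WellDefined (stdB n) g) ∧
    ∀ g : RMetric (EV n) M, NegCurvature g →
      (RayGap g → hLiou (stdB n) g < hTop g ∧ ¬ LocSymmetric g) ∧
      (RayAbove g ∨ RayBelow g ∨ RayRicci g →
        hLiou (stdB n) g ≤ hTop g ∧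
        (hLiou (stdB n) g = hTop g ↔ LocSymmetric g) ∧
        (hLiou (stdB n) g = hTop g ↔ ∃ κ : ℝ, 0 < κ ∧ ConstCurvature g κ)) := by
  have hW := fun g : RMetric (EV n) M => wellDefined (by omega : 2 ≤ n) g
  refine ⟨hW, fun g hN => ⟨fun hg => ?_, fun hc => ?_⟩⟩
  · have h1 := ne_of_gap (by omega) (hray g hN) hg
    exact ⟨lt_of_le_of_ne (QN.liou_le_top (by omega) hN) h1, fun hs => h1
      (P207.ksEntropy_eq_of_locSymmetric (by omega) (((hW g).1 _).2 rfl) (((hW g).2.1 _).2 rfl)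
        (((hW g).2.2 _).2 rfl) hN hs)⟩
  · obtain ⟨-, h2⟩ := QN.final_n (M := M) (by omega : 2 ≤ n)
      (P := fun g => NegCurvature g ∧ (RayAbove g ∨ RayBelow g ∨ RayRicci g))
      (fun _ h => h.1) (by
        rintro g ⟨hN, h⟩ φ μ m hφ hμ hm heq
        have hφ' : φ = geoFlow g := ((hW g).1 φ).1 hφ
        have hμ' : μ = vol (stdB n) g := ((hW g).2.1 μ).1 hμ
        have hm' : m = liou (stdB n) g := ((hW g).2.2 m).1 (by rw [← hμ']; exact hm)
        have he : hLiou (stdB n) g = hTop g := by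
          have h3 := heq
          rw [hφ', hm'] at h3
          exact h3
        refine hcore g ?_ φ μ m hφ hμ hm heq
        rcases h with h | h | h
        · exact Or.inl (above_pinched (hray g hN) he (by omega) h)
        · exact Or.inl (below_pinched hN (hray g hN) he (by omega) h)
        · exact Or.inr (ricci_pinched hN (hray g hN) he h))
    exact (h2 g ⟨hN, hc⟩).2

end Vale.Agent.P207F.Ray
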