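import Vale.Agent.P207.SPH.PubL
import Vale.Agent.P207.SPH.H40.RayP

/-!
# P207: curvature conditions along single rays, the final statements
-/

open scoped Manifold ContDiff ENNReal
open Bundle MeasureTheory Set Filter Topology

noncomputable section

namespace Vale.Agent.P207F.Ray

open Vale.Agent.P255 (RMetric innerAt coefIn Gam Riem IsGeo)
open Vale.Agent.P207F

variable {n : ℕ} {M : Type} [TopologicalSpace M] [ChartedSpace (EV n) M]
  [IsManifold 𝓘(ℝ, EV n) ∞ M] [MeasurableSpace M] [CompactSpace M] [T2Space M] [ConnectedSpace M]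
  [BorelSpace M]

/-- **the light statement**, from the inequalities and the core of the extremal classes -/
theorem ray_light (hn : 3 ≤ n)
    (hray : ∀ g : RMetric (EV n) M, NegCurvature g → RayIneq g)
    (hcore : ∀ g : RMetric (EV n) M, NegCurvature g → RayLow g ∨ RayHigh g →
      hLiou (stdB n) g = hTop g → ∃ κ, ConstCurvature g κ) :
    (∀ g : RMetric (EV n) M, WellDefined (stdB n) g) ∧
    ∀ g : RMetric (EV n) M, NegCurvature g →
      (RayGap g → hLiou (stdB n) g < hTop g ∧ ¬ LocSymmetric g) ∧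
      (RayLow g ∨ RayHigh g →
        hLiou (stdB n) g ≤ hTop g ∧
        (hLiou (stdB n) g = hTop g ↔ LocSymmetric g) ∧
        (hLiou (stdB n) g = hTop g ↔ ∃ κ : ℝ, 0 < κ ∧ ConstCurvature g κ)) := by
  have hW := fun g : RMetric (EV n) M => wellDefined (by omega : 2 ≤ n) g
  refine ⟨hW, fun g hN => ⟨fun hg => ?_, fun hc => ?_⟩⟩
  · have h1 := ne_of_gap (by omega) (hray g hN) hg
    exact ⟨lt_of_le_of_ne (QN.liou_le_top (by omega) hN) h1, fun hs => h1
      (P207.ksEntropy_eq_of_locSymmetric (by omega) (((hW g).1 _).2 rfl) (((hW g).2.1 _).2 rfl)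
        (((hW g).2.2 _).2 rfl) hN hs)⟩
  · obtain ⟨-, h2⟩ := QN.final_n (M := M) (by omega : 2 ≤ n)
      (P := fun g => NegCurvature g ∧ (RayLow g ∨ RayHigh g))
      (fun _ h => h.1) (by
        rintro g ⟨hN, h⟩ φ μ m hφ hμ hm heq
        have hφ' : φ = geoFlow g := ((hW g).1 φ).1 hφ
        have hμ' : μ = vol (stdB n) g := ((hW g).2.1 μ).1 hμ
        have hm' : m = liou (stdB n) g := ((hW g).2.2 m).1 (by rw [← hμ']; exact hm)
        have he : hLiou (stdB n) g = hTop g := by
          have h3 := heq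
          rw [hφ', hm'] at h3
          exact h3
        exact hcore g hN h he)
    exact (h2 g ⟨hN, hc⟩).2

/-- **the statement for the pinched classes** -/
theorem ray_pinched (hn : 3 ≤ n)
    (hray : ∀ g : RMetric (EV n) M, NegCurvature g → RayIneq g)
    (hcore : ∀ g : RMetric (EV n) M, EntropyPinched g ∨ RicciEntropyPinched g → ∀ φ μ m,
      P207.IsGeoFlow g φ → P207.IsRiemVol g μ → P207.IsLiouville g μ m →
      P207.ksEntropy m (φ 1) = P207.topEntropy (φ 1) → ∃ κ, ConstCurvature g κ) :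
    (∀ g : RMetric (EV n) M, WellDefined (stdB n) g) ∧
    ∀ g : RMetric (EV n) M, NegCurvature g → (RayAbove g ∨ RayBelow g ∨ RayRicci g) →
      hLiou (stdB n) g ≤ hTop g ∧
      (hLiou (stdB n) g = hTop g ↔ LocSymmetric g) ∧
      (hLiou (stdB n) g = hTop g ↔ ∃ κ : ℝ, 0 < κ ∧ ConstCurvature g κ) := by
  obtain ⟨h1, h2⟩ := ray_final hn hray hcore
  exact ⟨h1, fun g hN h => (h2 g hN).2 h⟩

end Vale.Agent.P207F.Ray
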