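import Vale.Agent.P207.SPH.Defs

/-!
# P207, SPH: averages along the flow, continuity in the frame
-/

open Matrix MeasureTheory Set Filter Topology

noncomputable section

namespace Vale.Agent.P207.SPH

variable {m : ℕ} {X : Type} [TopologicalSpace X]

theorem Sys.cS (D : Sys m X) : Continuous D.S := D.cU.add D.cV

theorem continuous_integral_flow [CompactSpace X] (D : Sys m X) {F : X → ℝ} (hF : Continuous F)
    (T : ℝ) : Continuous fun f => ∫ s in (0 : ℝ)..T, F (D.Φ s f) := by
  have h : Continuous fun q : X × ℝ => F (D.Φ q.2 q.1) :=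
    hF.comp (D.cont.comp (continuous_snd.prodMk continuous_fst))
  exact intervalIntegral.continuous_parametric_intervalIntegral_of_continuous' h 0 T

theorem exists_bound [CompactSpace X] {F : X → ℝ} (hF : Continuous F) : ∃ C, ∀ x, ‖F x‖ ≤ C := by
  obtain ⟨C, hC⟩ := (isCompact_range hF).isBounded.exists_norm_le
  exact ⟨C, fun x => hC _ (mem_range_self x)⟩

theorem integrable_cont [CompactSpace X] [MeasurableSpace X] [BorelSpace X] (μ : Measure X)
    [IsProbabilityMeasure μ] {F : X → ℝ} (hF : Continuous F) : Integrable F μ := by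
  obtain ⟨C, hC⟩ := exists_bound hF
  exact Integrable.of_bound hF.aestronglyMeasurable C (Eventually.of_forall hC)

theorem integral_flow_nonneg [CompactSpace X] [MeasurableSpace X] [BorelSpace X] (μ : Measure X)
    [IsProbabilityMeasure μ] (D : Sys m X) (hμ : ∀ t, MeasurePreserving (D.Φ t) μ μ)
    {F : X → ℝ} (hF : Continuous F) {T : ℝ} (hT : 0 ≤ T) :
    ∫ f, (∫ s in (0 : ℝ)..T, F (D.Φ s f)) ∂μ = T * ∫ f, F f ∂μ := by
  have hc : Continuous fun q : X × ℝ => F (D.Φ q.2 q.1) :=
    hF.comp (D.cont.comp (continuous_snd.prodMk continuous_fst))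
  obtain ⟨C, hC⟩ := exists_bound hF
  have hint : Integrable (Function.uncurry fun (f : X) (s : ℝ) => F (D.Φ s f))
      (μ.prod (volume.restrict (Ioc 0 T))) := by
    refine Integrable.of_bound hc.aestronglyMeasurable C ?_
    exact Eventually.of_forall fun q => hC _
  have h1 : ∀ s, ∫ f, F (D.Φ s f) ∂μ = ∫ f, F f ∂μ := fun s => by
    have h2 := (hμ s).map_eq
    conv_rhs => rw [← h2]
    exact (integral_map (hμ s).measurable.aemeasurable hF.aestronglyMeasurable).symm
  have h3 := integral_integral_swap hint
  simp only [intervalIntegral.integral_of_le hT]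
  rw [h3]
  simp only [h1, integral_const, measureReal_restrict_apply_univ, Real.volume_real_Ioc, sub_zero,
    max_eq_left hT, smul_eq_mul]

end Vale.Agent.P207.SPH
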