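import Vale.Agent.P207.SPH.H40.Fin3
import Vale.Agent.P207.SPH.H647.All

/-!
# P207, SPH: exponents, Ricci curvature, geometric mean, all the rows up to G1
-/

open scoped Manifold ContDiff ENNReal Topology Matrix
open Bundle MeasureTheory Set Filter

noncomputable section

namespace Vale.Agent.P207.SPH

open Vale.Agent.P255 (RMetric)

theorem main3Stmt : Main3Stmt := fun _ _ _ _ _ _ μ _ _ D _ _ hμ hflip hY hZ =>
  main3_of (H647.area H207.grow) H234.eig H752.kyStmt H647.nStmt (H5.up H752.kyStmt)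
    (H5.rig H752.kyStmt H647.nStmt) H647.par (H647.convF H647.nStmt) H761.jensen
    (H128.lyap (H761.comp H207.grow) H647.nStmt H234.eig H752.kyStmt (H5.up H752.kyStmt))
    μ D hμ hflip hY hZ

/-- the final theorem, from G1 -/
theorem wrap3 (hSys : SysGeoStmt) (n : ℕ) (hn : 3 ≤ n) (M : Type) [TopologicalSpace M]
    [CompactSpace M] [T2Space M]
    [ConnectedSpace M] [ChartedSpace (P207F.EV n) M] [IsManifold 𝓘(ℝ, P207F.EV n) ∞ M]
    [MeasurableSpace M] [BorelSpace M] :
    (∀ g : RMetric (P207F.EV n) M, P207F.WellDefined (P207F.stdB n) g) ∧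
    ∀ g : RMetric (P207F.EV n) M, P207F.NegCurvature g →
      ∃ χ : Fin (n - 1) → ℝ, P207F.IsLyap (P207F.stdB n) g χ ∧ (∀ i, 0 < χ i) ∧
        P207F.hLiou (P207F.stdB n) g ≤ ENNReal.ofReal (∑ i, χ i) ∧
        ENNReal.ofReal (∑ i, χ i) ≤ P207F.hTop g ∧
        P207F.RicciSquare g χ ∧ P207F.GeometricMean g χ :=
  wrap3_of main3Stmt (H647.area H207.grow) (H761.comp H207.grow) (H647.convF H647.nStmt)
    H761.fund H752.kyStmt H234.eig hSys H453.jacGeo H596.loc H761.uniq n hn M

end Vale.Agent.P207.SPH
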