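import Vale.Agent.P207.SPH.H40.Main

/-!
# P207, SPH: the abstract theorem from the rows (R16)
-/

open Matrix MeasureTheory Set Filter Topology

noncomputable section

namespace Vale.Agent.P207.SPH

variable {m : ℕ} {X : Type} [TopologicalSpace X]

theorem psum_ev (hEig : EigStmt) (D : Sys m X) {k : ℕ} (hk : k ≤ m) (f : X) :
    psum k (fun i => D.ev i f) = sg k (D.S f) := ((D.ev_spec hEig f).2.2.2.2 k hk).symm

/-- equality in all the bounds: `U = V` -/
theorem rigid [CompactSpace X] [MeasurableSpace X] [BorelSpace X] (μ : Measure X)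
    [IsProbabilityMeasure μ] [μ.IsOpenPosMeasure] (D : Sys m X) {Y : ℝ → X → Mt m}
    (hEig : EigStmt) (hN : NStmt) (hUp : UpStmt) (hRig : RigStmt) (hY : Fund D D.U Y)
    {χ : Fin m → ℝ} (hlow : ∀ k ≤ m, ∀ T, 0 < T → 2 * T * psum k χ ≤
      ∫ f, Real.log (D.N Y k T f) ∂μ) (he : ∀ i f, D.ev i f = 2 * χ i) :
    ∀ f, D.U f = D.V f := by
  have hsg : ∀ k ≤ m, ∀ f, sg k (D.S f) = 2 * psum k χ := fun k hk f => by
    rw [← psum_ev hEig D hk f, ← psum_mul]
    simp only [he]
  refine hRig m X D Y hY (fun k => 2 * psum k χ) hsg fun k hk T hT f => ?_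
  obtain ⟨hatt, hpos, hcont, -, -⟩ := hN m X D Y hY k hk
  have hI : ∀ T f, ∫ s in (0 : ℝ)..T, sg k (D.S (D.Φ s f)) = 2 * T * psum k χ := fun T f => by
    simp only [hsg k hk, intervalIntegral.integral_const, sub_zero, smul_eq_mul]
    ring
  rcases hT.eq_or_lt with rfl | hT
  · obtain ⟨W, h1, h2, -⟩ := hatt 0 f
    rw [h2, hY.zero, D.zero]
    simp only [Matrix.transpose_one, Matrix.one_mul, Matrix.mul_one, h1, Matrix.det_one,
      intervalIntegral.integral_same, Real.exp_zero]
  · have hle : ∀ f, Real.log (D.N Y k T f) ≤ 2 * T * psum k χ := fun f => by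
      have h1 := Real.log_le_log (hpos T f) (hUp m X D Y hY k hk T hT.le f)
      rwa [Real.log_exp, hI] at h1
    have hlc : Continuous fun f => Real.log (D.N Y k T f) :=
      (hcont T).log fun f => (hpos T f).ne'
    have h2 : ∫ f, (2 * T * psum k χ - Real.log (D.N Y k T f)) ∂μ ≤ 0 := by
      rw [integral_sub (integrable_const _) (integrable_cont μ hlc), integral_const,
        probReal_univ, one_smul]
      linarith [hlow k hk T hT]
    have h3 : (fun f => 2 * T * psum k χ - Real.log (D.N Y k T f)) = 0 := by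
      have h4 : 0 ≤ fun f => 2 * T * psum k χ - Real.log (D.N Y k T f) := fun f =>
        sub_nonneg.2 (hle f)
      have hc : Continuous fun f => 2 * T * psum k χ - Real.log (D.N Y k T f) :=
        continuous_const.sub hlc
      have h6 := (integral_eq_zero_iff_of_nonneg h4 (integrable_cont μ hc)).1
        (le_antisymm h2 (integral_nonneg h4))
      exact (hc.ae_eq_iff_eq μ continuous_zero).1 h6
    have h5 := congrFun h3 f
    simp only [Pi.zero_apply, sub_eq_zero] at h5
    rw [hI, h5, Real.exp_log (hpos T f)]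

theorem sum_log_eq {χ : Fin m → ℝ} (hχ : ∀ i, 0 < χ i) :
    Real.exp (-∑ i, Real.log (2 * χ i)) = ∏ i, (2 * χ i)⁻¹ := by
  rw [← Finset.sum_neg_distrib, Real.exp_sum]
  refine Finset.prod_congr rfl fun i _ => ?_
  rw [← Real.log_inv, Real.exp_log]
  have := hχ i
  positivity

/-- **R16** -/
theorem main_of (hArea : AreaStmt) (hEig : EigStmt) (hKy : KyStmt) (hN : NStmt) (hUp : UpStmt)
    (hRig : RigStmt) (hPar : ParStmt) (hConv : ConvStmt) (hJ : JensenStmt) (hL : LyapStmt) :
    MainStmt := by
  intro m X _ _ _ _ μ _ _ D Y Z hμ hflip hY hZ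
  obtain ⟨χ, hanti, hge, hlim, hlow, hlimN, hsum⟩ := hL m X μ D Y Z hμ hY hZ
  have hχ : ∀ i, 0 < χ i := fun i => lt_of_lt_of_le D.a_pos (hge i)
  have htrU : Continuous fun f => (D.U f).trace := D.cU.matrix_trace
  have htrV : Continuous fun f => (D.V f).trace := D.cV.matrix_trace
  have hS : ∑ i, χ i = ∫ f, (D.U f).trace ∂μ := by
    have h1 : ∫ f, (D.S f).trace ∂μ = ∫ f, (D.U f).trace ∂μ + ∫ f, (D.V f).trace ∂μ := by
      rw [← integral_add (integrable_cont μ htrU) (integrable_cont μ htrV)]
      exact integral_congr_ae (Eventually.of_forall fun f => Matrix.trace_add _ _)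
    linarith
  -- Jensen
  have hpart : ∀ k ≤ m, 2 * psum k χ ≤ ∫ f, psum k (fun i => D.ev i f) ∂μ := fun k hk => by
    have h1 := hlow k hk 1 one_pos
    have h2 := intN_le μ D hμ hKy hN hUp hY hk zero_le_one
    have h3 : ∫ f, psum k (fun i => D.ev i f) ∂μ = ∫ f, sg k (D.S f) ∂μ :=
      integral_congr_ae (Eventually.of_forall fun f => psum_ev hEig D hk f)
    rw [h3]
    linarith
  have htot : 2 * ∑ i, χ i = ∫ f, (∑ i, D.ev i f) ∂μ := by
    rw [hsum]
    exact integral_congr_ae (Eventually.of_forall fun f => (D.ev_spec hEig f).2.2.1)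
  obtain ⟨hJ1, hJ2⟩ := hJ m X μ (fun i f => D.ev i f) χ (D.ev_cont hKy) (D.ev_pos hEig) hanti hχ
    hpart htot
  obtain ⟨C, T₀, hC, hA⟩ := area_lower μ D hμ hArea hEig hKy hY hZ
  set J : ℝ := ∫ f, (∑ i, Real.log (D.ev i f)) ∂μ with hJdef
  have hE : Tendsto (fun T : ℝ => Real.exp (-J - C * Real.exp (-(2 * D.a * T)))) atTop
      (𝓝 (Real.exp (-J))) := by
    have h1 : Tendsto (fun T : ℝ => Real.exp (-(2 * D.a * T))) atTop (𝓝 0) :=
      Real.tendsto_exp_neg_atTop_nhds_zero.comp
        (tendsto_id.const_mul_atTop (mul_pos two_pos D.a_pos))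
    have h2 := (tendsto_const_nhds (x := -J)).sub (h1.const_mul C)
    rw [mul_zero, sub_zero] at h2
    exact (Real.continuous_exp.tendsto _).comp h2
  have hev : ∀ c < Real.exp (-J), ∀ᶠ T in atTop,
      c * Real.exp (T * ∑ i, χ i) ≤ ∫ f, (D.A Y Z T f).det ∂μ := by
    intro c hc
    filter_upwards [hE.eventually (lt_mem_nhds hc), eventually_ge_atTop T₀] with T h1 h2
    refine le_trans ?_ (hA T h2)
    rw [← hS]
    have h3 : T * (∑ i, χ i) - J - C * Real.exp (-(2 * D.a * T)) =
        (-J - C * Real.exp (-(2 * D.a * T))) + T * (∑ i, χ i) := by ring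
    rw [h3, Real.exp_add]
    exact mul_le_mul_of_nonneg_right h1.le (Real.exp_pos _).le
  have hle : ∏ i, (2 * χ i)⁻¹ ≤ Real.exp (-J) := by
    rw [← sum_log_eq hχ]
    exact Real.exp_le_exp.2 (neg_le_neg hJ1)
  refine ⟨χ, hanti, hχ, hS, hlim, fun c hc => hev c (hc.trans_le hle), fun hK => ?_,
    fun hK hcst => ?_⟩
  · have hlt : ∏ i, (2 * χ i)⁻¹ < Real.exp (-J) := by
      rw [← sum_log_eq hχ]
      refine Real.exp_lt_exp.2 (neg_lt_neg (lt_of_le_of_ne hJ1 fun h => hK fun t f => ?_))
      have h1 := hJ2 h.ge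
      exact (hPar m X D (rigid μ D hEig hN hUp hRig hY hlow h1) t f).2
    obtain ⟨c, h1, h2⟩ := exists_between hlt
    exact ⟨c, h1, hev c h2⟩
  · obtain ⟨hUV, hUc, hNlow⟩ := hConv m X D hK
    obtain ⟨c, hc⟩ := hcst
    have hk : ∀ k ≤ m, psum k χ = c k / 2 := by
      intro k hk
      obtain ⟨-, hpos, hcont, -, -⟩ := hN m X D Y hY k hk
      have h1 : ∀ T f, 0 ≤ T → Real.log (D.N Y k T f) = T * c k := by
        intro T f hT
        refine le_antisymm ?_ ?_
        · have h2 := Real.log_le_log (hpos T f) (hUp m X D Y hY k hk T hT f)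
          rw [Real.log_exp] at h2
          simpa only [hc k hk, intervalIntegral.integral_const, sub_zero, smul_eq_mul] using h2
        · have h2 := Real.log_le_log (Real.exp_pos _) (hNlow Y hY k hk T hT f)
          rwa [Real.log_exp, hc k hk] at h2
      have h3 : Tendsto (fun T : ℝ => (∫ f, Real.log (D.N Y k T f) ∂μ) / (2 * T)) atTop
          (𝓝 (c k / 2)) := by
        refine tendsto_const_nhds.congr' ?_
        filter_upwards [eventually_gt_atTop 0] with T hT
        simp only [h1 T _ hT.le, integral_const, probReal_univ, one_smul]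
        field_simp
      exact tendsto_nhds_unique (hlimN k hk) h3
    have hev2 : ∀ i f, D.ev i f = 2 * χ i := by
      intro i f
      unfold Sys.ev
      rw [hc _ i.2, hc _ i.2.le, ← psum_succ (e := χ) i, hk _ i.2, hk _ i.2.le]
      ring
    have hdet : ∀ f, Real.log (D.S f).det = ∑ i, Real.log (2 * χ i) := fun f => by
      rw [D.log_det hEig]
      simp only [hev2]
    have htr : ∀ f, (D.U f).trace = ∑ i, χ i := by
      intro f
      have h1 := (D.ev_spec hEig f).2.2.1
      simp only [hev2, ← Finset.mul_sum] at h1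
      unfold Sys.S at h1
      rw [← hUV, Matrix.trace_add] at h1
      linarith
    obtain ⟨C', T₁, hC', hA'⟩ := hArea m X D Y Z hY hZ
    rw [← sum_log_eq hχ]
    set L : ℝ := ∑ i, Real.log (2 * χ i) with hLdef
    set h : ℝ := ∑ i, χ i with hh
    have hbd : ∀ T, T₁ ≤ T → 
        Real.exp (-L - C' * Real.exp (-(2 * D.a * T))) ≤
          Real.exp (-(T * h)) * ∫ f, (D.A Y Z T f).det ∂μ ∧
        Real.exp (-(T * h)) * ∫ f, (D.A Y Z T f).det ∂μ ≤
          Real.exp (-L + C' * Real.exp (-(2 * D.a * T))) := by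
      intro T hT
      have hci := integrable_cont μ (det_A_cont hEig D hY hZ T)
      have h1 : ∀ f, |Real.log (D.A Y Z T f).det - (T * h - L)| ≤
          C' * Real.exp (-(2 * D.a * T)) := by
        intro f
        have h2 := (hA' T hT f).2
        simp only [htr, hdet, intervalIntegral.integral_const, sub_zero, smul_eq_mul] at h2
        exact h2
      have h3 : ∀ f, Real.exp (T * h - L - C' * Real.exp (-(2 * D.a * T))) ≤
          (D.A Y Z T f).det := fun f => by
        rw [← Real.exp_log (hA' T hT f).1]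
        exact Real.exp_le_exp.2 (by linarith [(abs_le.1 (h1 f)).1])
      have h4 : ∀ f, (D.A Y Z T f).det ≤
          Real.exp (T * h - L + C' * Real.exp (-(2 * D.a * T))) := fun f => by
        rw [← Real.exp_log (hA' T hT f).1]
        exact Real.exp_le_exp.2 (by linarith [(abs_le.1 (h1 f)).2])
      have h5 := integral_mono (μ := μ) (integrable_const _) hci h3
      have h6 := integral_mono (μ := μ) hci (integrable_const _) h4
      simp only [integral_const, probReal_univ, one_smul] at h5 h6
      constructor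
      · refine le_trans (le_of_eq ?_) (mul_le_mul_of_nonneg_left h5 (Real.exp_pos _).le)
        rw [← Real.exp_add]
        congr 1
        ring
      · refine (mul_le_mul_of_nonneg_left h6 (Real.exp_pos _).le).trans (le_of_eq ?_)
        rw [← Real.exp_add]
        congr 1
        ring
    have h1 : Tendsto (fun T : ℝ => Real.exp (-(2 * D.a * T))) atTop (𝓝 0) :=
      Real.tendsto_exp_neg_atTop_nhds_zero.comp
        (tendsto_id.const_mul_atTop (mul_pos two_pos D.a_pos))
    have h2 := (tendsto_const_nhds (x := -L)).sub (h1.const_mul C')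
    have h3 := (tendsto_const_nhds (x := -L)).add (h1.const_mul C')
    rw [mul_zero, sub_zero] at h2
    rw [mul_zero, add_zero] at h3
    refine tendsto_of_tendsto_of_tendsto_of_le_of_le' ((Real.continuous_exp.tendsto _).comp h2)
      ((Real.continuous_exp.tendsto _).comp h3) ?_ ?_
    · filter_upwards [eventually_ge_atTop T₁] with T hT using (hbd T hT).1
    · filter_upwards [eventually_ge_atTop T₁] with T hT using (hbd T hT).2

end Vale.Agent.P207.SPH
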