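import Vale.Agent.P207.SPH.H40.Vol
import Vale.Agent.P207.SPH.H40.Main2

/-!
# P207, SPH: the final statement from the rows
-/

open scoped Manifold ContDiff ENNReal Topology Matrix
open Bundle MeasureTheory Set Filter

set_option maxSynthPendingDepth 3
set_option linter.unusedSectionVars false

noncomputable section

namespace Vale.Agent.P207.SPH

open Vale.Agent.P255 (RMetric innerAt coefIn Gam Riem IsGeo IsJac fieldIn)
open Vale.Agent.P207 Vale.Agent.P207.Q Vale.Agent.P207.Q.H130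
open Vale.Agent.P207F (Spread jvolAlong jvol velo geoFlow vol liou meanArea IsLyap SphereArea
  AreaCriterion hLiou hTop)

theorem topV_cont (hKy : KyStmt) (hEig : EigStmt) {m : ℕ} {X : Type} [TopologicalSpace X]
    (D : Sys m X) {Y Z : ℝ → X → Mt m} (hY : Fund D D.U Y) (hZ : Fund D (fun f => -D.V f) Z)
    {k : ℕ} (hk : k ≤ m) (T : ℝ) :
    Continuous fun f => topV k ((D.A Y Z T f)ᵀ * D.A Y Z T f) := by
  have hYT : Continuous fun f => Y T f := hY.cont.comp (Continuous.prodMk_right T)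
  have hZT : Continuous fun f => Z T f := hZ.cont.comp (Continuous.prodMk_right T)
  have hinv : Continuous fun f => (D.S f)⁻¹ := by
    simp only [Matrix.inv_def, Ring.inverse_eq_inv']
    exact (D.cS.matrix_det.inv₀ fun f => (D.detS_pos hEig f).ne').smul D.cS.matrix_adjugate
  have hA : Continuous fun f => D.A Y Z T f := (hYT.sub hZT).mul hinv
  exact (hKy m k hk).2.1.comp (hA.matrix_transpose.mul hA)

theorem topV_top (hEig : EigStmt) {m : ℕ} (A : Mt m) : topV m (Aᵀ * A) = A.det ^ 2 := by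
  have hs : (Aᵀ * A)ᵀ = Aᵀ * A := by rw [Matrix.transpose_mul, Matrix.transpose_transpose]
  obtain ⟨e, -, h2, -, -, -, h6⟩ := hEig m (Aᵀ * A) hs
  have h0 : ∀ x : Fin m → ℝ, 0 ≤ x ⬝ᵥ ((Aᵀ * A) *ᵥ x) := fun x => by
    rw [← Matrix.mulVec_mulVec, Matrix.dotProduct_mulVec, Matrix.vecMul_transpose]
    exact Finset.sum_nonneg fun i _ => mul_self_nonneg _
  rw [h6 h0 m le_rfl]
  have h3 : pprod m e = ∏ i, e i := by
    unfold pprod
    exact Finset.prod_congr rfl fun i _ => if_pos i.2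
  rw [h3, ← h2, Matrix.det_mul, Matrix.det_transpose]
  ring

variable {m : ℕ} {M : Type} [TopologicalSpace M] [ChartedSpace (EV (m + 1)) M]
  [IsManifold 𝓘(ℝ, EV (m + 1)) ∞ M] [CompactSpace M] [T2Space M] [ConnectedSpace M]
  [MeasurableSpace M] [BorelSpace M] {g : RMetric (EV (m + 1)) M}

theorem final_of (hMain : MainStmt) (hArea : AreaStmt) (hComp : CompStmt) (hConv : ConvStmt)
    (hFund : FundStmt) (hKy : KyStmt)
    (hEig : EigStmt) (hSys : SysGeoStmt) (hJac : JacGeoStmt) (hLoc : LocGeoStmt)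
    (hUn : UniqGeoStmt) (h2 : 2 ≤ m) (hN : P207F.NegCurvature g) :
    ∃ χ : Fin m → ℝ, IsLyap (P207F.stdB (m + 1)) g χ ∧ (∀ i, 0 < χ i) ∧
      hLiou (P207F.stdB (m + 1)) g ≤ ENNReal.ofReal (∑ i, χ i) ∧
      ENNReal.ofReal (∑ i, χ i) ≤ hTop g ∧ SphereArea (P207F.stdB (m + 1)) g χ := by
  have hW := P207F.wellDefined (by omega : 2 ≤ m + 1) g
  have hφ : IsGeoFlow g (geoFlow g) := (hW.1 _).2 rfl
  have hμ : IsRiemVol g (vol (P207F.stdB (m + 1)) g) := (hW.2.1 _).2 rfl
  have hm : IsLiouville g (vol (P207F.stdB (m + 1)) g) (liou (P207F.stdB (m + 1)) g) := (hW.2.2 _).2 rfl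
  obtain ⟨hcomp, D, mP, hΦ, hK, hut, hsurj, hprob, hop, hmp, hutmp, hflip, hcst, hRu, hMa⟩ :=
    hSys m h2 M g hN _ _ _ hφ hμ hm
  obtain ⟨Y, hY⟩ := hFund m (Fr g) D D.U D.cU
  obtain ⟨Z, hZ⟩ := hFund m (Fr g) D (fun f => -D.V f) D.cV.neg
  obtain ⟨χ, hanti, hpos, hsum, hlim, hlow, hstrict, hconv⟩ :=
    hMain m (Fr g) mP D Y Z hmp hflip hY hZ
  have hj : ∀ k T (f : Fr g), jvol g k T (f.ut 0) = topV k ((D.A Y Z T f)ᵀ * D.A Y Z T f) := by
    intro k T f
    unfold jvol
    have h1 : (fun t => (geoFlow g t (f.ut 0)).pt) = fun t => (D.Φ t f).pt := by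
      funext t
      rw [hut t f]
      rfl
    rw [h1]
    exact jvolAlong_frame hJac hUn h2 D hΦ hK hcomp hY hZ f k T
  have hcut : Continuous fun f : Fr g => f.ut 0 := Fr.continuous_ut 0
  have := compactSpace_UT g
  have := t2Space_UT g
  have := hcomp
  have hq : Topology.IsQuotientMap fun f : Fr g => f.ut 0 :=
    (hcut.isClosedMap).isQuotientMap hcut fun p => hsurj p
  have hint : ∀ F : UT g → ℝ, Continuous (fun f : Fr g => F (f.ut 0)) →
      ∫ v, F v ∂(liou (P207F.stdB (m + 1)) g) = ∫ f, F (f.ut 0) ∂mP := by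
    intro F hF
    have hFc : Continuous F := hq.continuous_iff.2 hF
    rw [← hutmp.map_eq]
    exact integral_map hutmp.measurable.aemeasurable hFc.aestronglyMeasurable
  obtain ⟨C, T₀, -, hA⟩ := hArea m (Fr g) D Y Z hY hZ
  have harea : ∀ᶠ T in atTop, meanArea (P207F.stdB (m + 1)) g T = ∫ f, (D.A Y Z T f).det ∂mP := by
    filter_upwards [eventually_ge_atTop T₀] with T hT
    unfold meanArea
    have h3 : ∀ f : Fr g, Real.sqrt (jvol g (m + 1 - 1) T (f.ut 0)) = (D.A Y Z T f).det := by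
      intro f
      rw [hj, Nat.add_sub_cancel, topV_top hEig, Real.sqrt_sq (hA T hT f).1.le]
    refine (hint (fun v => Real.sqrt (jvol g (m + 1 - 1) T v)) ?_).trans ?_
    · simp only [h3]
      exact det_A_cont hEig D hY hZ T
    · exact integral_congr_ae (Eventually.of_forall h3)
  have hLS : (∀ t f, D.K (D.Φ t f) = D.K f) ↔ P207F.LocSymmetric g := by
    have h3 := hLoc m h2 M g D.Φ hΦ
    simp only [hK]
    exact h3
  refine ⟨χ, ⟨hanti, fun k hk => ?_⟩, hpos, ?_, ?_, fun c hc => ?_, fun hS => ?_, fun hS => ?_⟩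
  · obtain ⟨C', T₁, hC', hB⟩ := hComp m (Fr g) D Y Z hY hZ
    refine (hlim k hk).congr' ?_
    filter_upwards [eventually_ge_atTop T₁] with T hT
    rw [hint (fun v => Real.log (jvol g k T v)) ?_]
    · simp only [hj]
    · simp only [hj]
      refine (topV_cont hKy hEig D hY hZ hk T).log fun f => ?_
      obtain ⟨h3, h4, -⟩ := hB T hT f k hk
      exact (lt_of_lt_of_le (mul_pos (inv_pos.2 hC') h3) h4).ne'
  · rw [hsum]; exact hRu
  · rw [hsum]; exact hMa
  · filter_upwards [hlow c hc, harea] with T h3 h4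
    rw [h4]; exact h3
  · have hKc := hLS.2 hS
    obtain ⟨hUV, hUc, -⟩ := hConv m (Fr g) D hKc
    have hc : ∀ k ≤ m, ∃ c, ∀ f, sg k (D.S f) = c := fun k hk => hcst k hk fun t f => by
      unfold Sys.S
      rw [← hUV, ← hUV, hUc]
    choose! c hc using hc
    refine (hconv hKc ⟨c, hc⟩).congr' ?_
    filter_upwards [harea] with T h4
    rw [h4]
    try rfl
  · obtain ⟨c, h3, h4⟩ := hstrict fun h => hS (hLS.1 h)
    refine ⟨c, h3, ?_⟩
    filter_upwards [h4, harea] with T h5 h6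
    rw [h6]; exact h5

end Vale.Agent.P207.SPH
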