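import Vale.Agent.P207.SPH.H40.Sq

/-!
# P207, SPH: the abstract theorem about squares and the geometric mean
-/

open Matrix MeasureTheory Set Filter Topology

noncomputable section

namespace Vale.Agent.P207.SPH

variable {m : ℕ} {X : Type} [TopologicalSpace X]

/-- if `K` and the `sg` are constant then the eigenvalues of `S` are `2 χ` -/
theorem ev_of_const [CompactSpace X] [MeasurableSpace X] [BorelSpace X] (μ : Measure X)
    [IsProbabilityMeasure μ] (D : Sys m X) {Y : ℝ → X → Mt m} (hN : NStmt) (hUp : UpStmt)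
    (hConv : ConvStmt) (hY : Fund D D.U Y) {χ : Fin m → ℝ}
    (hlimN : ∀ k ≤ m, Tendsto (fun T : ℝ => (∫ f, Real.log (D.N Y k T f) ∂μ) / (2 * T)) atTop
        (𝓝 (psum k χ)))
    (hK : ∀ t f, D.K (D.Φ t f) = D.K f) (hcst : ∃ c : ℕ → ℝ, ∀ k ≤ m, ∀ f, sg k (D.S f) = c k) :
    ∀ i f, D.ev i f = 2 * χ i := by
  obtain ⟨hUV, hUc, hNlow⟩ := hConv m X D hK
  obtain ⟨c, hc⟩ := hcst
  have hk : ∀ k ≤ m, psum k χ = c k / 2 := by
    intro k hk
    obtain ⟨-, hpos, hcont, -, -⟩ := hN m X D Y hY k hk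
    have h1 : ∀ T f, 0 ≤ T → Real.log (D.N Y k T f) = T * c k := by
      intro T f hT
      refine le_antisymm ?_ ?_
      · have h2 := Real.log_le_log (hpos T f) (hUp m X D Y hY k hk T hT f)
        rw [Real.log_exp] at h2
        simpa only [hc k hk, intervalIntegral.integral_const, sub_zero, smul_eq_mul] using h2
      · have h2 := Real.log_le_log (Real.exp_pos _) (hNlow Y hY k hk T hT f)
        rwa [Real.log_exp, hc k hk] at h2
    have h3 : Tendsto (fun T : ℝ => (∫ f, Real.log (D.N Y k T f) ∂μ) / (2 * T)) atTop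
        (𝓝 (c k / 2)) := by
      refine tendsto_const_nhds.congr' ?_
      filter_upwards [eventually_gt_atTop 0] with T hT
      simp only [h1 T _ hT.le, integral_const, probReal_univ, one_smul]
      field_simp
    exact tendsto_nhds_unique (hlimN k hk) h3
  intro i f
  unfold Sys.ev
  rw [hc _ i.2, hc _ i.2.le, ← psum_succ (e := χ) i, hk _ i.2, hk _ i.2.le]
  ring

/-- the geometric mean of `det A` -/
theorem log_area_lim [CompactSpace X] [MeasurableSpace X] [BorelSpace X] (μ : Measure X)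
    [IsProbabilityMeasure μ] (D : Sys m X) {Y Z : ℝ → X → Mt m}
    (hμ : ∀ t, MeasurePreserving (D.Φ t) μ μ) (hArea : AreaStmt) (hEig : EigStmt) (hKy : KyStmt)
    (hY : Fund D D.U Y) (hZ : Fund D (fun f => -D.V f) Z) :
    Tendsto (fun T : ℝ => ∫ f, Real.log (D.A Y Z T f).det ∂μ - T * ∫ f, (D.U f).trace ∂μ) atTop
      (𝓝 (-∫ f, (∑ i, Real.log (D.ev i f)) ∂μ)) := by
  obtain ⟨C, T₀, hC, h⟩ := hArea m X D Y Z hY hZ
  set J : ℝ := ∫ f, (∑ i, Real.log (D.ev i f)) ∂μ with hJ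
  have h1 : Tendsto (fun T : ℝ => C * Real.exp (-(2 * D.a * T))) atTop (𝓝 0) := by
    have h2 : Tendsto (fun T : ℝ => Real.exp (-(2 * D.a * T))) atTop (𝓝 0) :=
      Real.tendsto_exp_neg_atTop_nhds_zero.comp
        (tendsto_id.const_mul_atTop (mul_pos two_pos D.a_pos))
    simpa using h2.const_mul C
  rw [tendsto_iff_norm_sub_tendsto_zero]
  refine squeeze_zero' (Eventually.of_forall fun _ => norm_nonneg _) ?_ h1
  filter_upwards [eventually_ge_atTop T₀, eventually_ge_atTop 0] with T hT hT1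
  have hc := det_A_cont hEig D hY hZ T
  have hlc : Continuous fun f => Real.log (D.A Y Z T f).det := hc.log fun f => (h T hT f).1.ne'
  have htr : Continuous fun f => (D.U f).trace := D.cU.matrix_trace
  have hI : Continuous fun f => ∫ s in (0 : ℝ)..T, (D.U (D.Φ s f)).trace :=
    continuous_integral_flow D htr T
  have hl := D.log_ev_cont hEig hKy
  have h5 : ∫ f, (∫ s in (0 : ℝ)..T, (D.U (D.Φ s f)).trace) ∂μ = T * ∫ f, (D.U f).trace ∂μ :=
    integral_flow_nonneg μ D hμ htr hT1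
  have h6 : ∫ f, (Real.log (D.A Y Z T f).det - ((∫ s in (0 : ℝ)..T, (D.U (D.Φ s f)).trace) -
      ∑ i, Real.log (D.ev i f))) ∂μ =
      ∫ f, Real.log (D.A Y Z T f).det ∂μ - T * ∫ f, (D.U f).trace ∂μ - -J := by
    have hI2 : Continuous fun f => (∫ s in (0 : ℝ)..T, (D.U (D.Φ s f)).trace) -
      ∑ i, Real.log (D.ev i f) := hI.sub hl
    have e1 := integral_sub (integrable_cont μ hlc) (integrable_cont μ hI2)
    have e2 := integral_sub (integrable_cont μ hI) (integrable_cont μ hl)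
    rw [e1, e2, h5]
    ring
  rw [← h6]
  refine (norm_integral_le_of_norm_le_const (Eventually.of_forall fun f => ?_)).trans
    (le_of_eq (by rw [probReal_univ, mul_one]))
  have h7 := (h T hT f).2
  rw [D.log_det hEig] at h7
  rw [Real.norm_eq_abs]
  exact h7

/-- the abstract theorem: squares and geometric mean -/
theorem main3_of (hArea : AreaStmt) (hEig : EigStmt) (hKy : KyStmt) (hN : NStmt) (hUp : UpStmt)
    (hRig : RigStmt) (hPar : ParStmt) (hConv : ConvStmt) (hJ : JensenStmt) (hL : LyapStmt)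
    {m : ℕ} {X : Type} [TopologicalSpace X] [CompactSpace X]
    [MeasurableSpace X] [BorelSpace X] (μ : Measure X) [IsProbabilityMeasure μ]
    [μ.IsOpenPosMeasure] (D : Sys m X) {Y Z : ℝ → X → Mt m}
    (hμ : ∀ t, MeasurePreserving (D.Φ t) μ μ)
    (hflip : ∫ f, (D.V f).trace ∂μ = ∫ f, (D.U f).trace ∂μ)
    (hY : Fund D D.U Y) (hZ : Fund D (fun f => -D.V f) Z) :
    ∃ χ : Fin m → ℝ, Antitone χ ∧ (∀ i, 0 < χ i) ∧
      ∑ i, χ i = ∫ f, (D.U f).trace ∂μ ∧
      (∀ k ≤ m, Tendsto (fun T : ℝ => (∫ f, Real.log (topV k ((D.A Y Z T f)ᵀ * D.A Y Z T f)) ∂μ) /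
        (2 * T)) atTop (𝓝 (psum k χ))) ∧
      ∑ i, χ i ^ 2 ≤ ∫ f, (D.K f).trace ∂μ ∧
      (∑ i, χ i ^ 2 = ∫ f, (D.K f).trace ∂μ → ∀ t f, D.K (D.Φ t f) = D.K f) ∧
      (∃ δ, Tendsto (fun T : ℝ => ∫ f, Real.log (D.A Y Z T f).det ∂μ - T * ∑ i, χ i) atTop (𝓝 δ) ∧
        -∑ i, Real.log (2 * χ i) ≤ δ ∧
        (δ = -∑ i, Real.log (2 * χ i) → ∀ t f, D.K (D.Φ t f) = D.K f) ∧
        ((∀ t f, D.K (D.Φ t f) = D.K f) → (∃ c : ℕ → ℝ, ∀ k ≤ m, ∀ f, sg k (D.S f) = c k) →
          ∑ i, χ i ^ 2 = ∫ f, (D.K f).trace ∂μ ∧ δ = -∑ i, Real.log (2 * χ i))) := by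
  obtain ⟨χ, hanti, hge, hlim, hlow, hlimN, hsum⟩ := hL m X μ D Y Z hμ hY hZ
  have hχ : ∀ i, 0 < χ i := fun i => lt_of_lt_of_le D.a_pos (hge i)
  have htrU : Continuous fun f => (D.U f).trace := D.cU.matrix_trace
  have htrV : Continuous fun f => (D.V f).trace := D.cV.matrix_trace
  have hS : ∑ i, χ i = ∫ f, (D.U f).trace ∂μ := by
    have h1 : ∫ f, (D.S f).trace ∂μ = ∫ f, (D.U f).trace ∂μ + ∫ f, (D.V f).trace ∂μ := by
      rw [← integral_add (integrable_cont μ htrU) (integrable_cont μ htrV)]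
      exact integral_congr_ae (Eventually.of_forall fun f => Matrix.trace_add _ _)
    linarith
  have hpart : ∀ k ≤ m, 2 * psum k χ ≤ ∫ f, psum k (fun i => D.ev i f) ∂μ := fun k hk => by
    have h1 := hlow k hk 1 one_pos
    have h2 := intN_le μ D hμ hKy hN hUp hY hk zero_le_one
    have h3 : ∫ f, psum k (fun i => D.ev i f) ∂μ = ∫ f, sg k (D.S f) ∂μ :=
      integral_congr_ae (Eventually.of_forall fun f => psum_ev hEig D hk f)
    rw [h3]
    linarith
  have htot : 2 * ∑ i, χ i = ∫ f, (∑ i, D.ev i f) ∂μ := by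
    rw [hsum]
    exact integral_congr_ae (Eventually.of_forall fun f => (D.ev_spec hEig f).2.2.1)
  obtain ⟨hJ1, hJ2⟩ := hJ m X μ (fun i f => D.ev i f) χ (D.ev_cont hKy) (D.ev_pos hEig) hanti hχ
    hpart htot
  obtain ⟨hQ1, hQ2⟩ := sq_le μ (e := fun i f => D.ev i f) (D.ev_cont hKy) hanti hpart htot
  have hSS : ∫ f, (∑ i, D.ev i f ^ 2) ∂μ ≤ 4 * ∫ f, (D.K f).trace ∂μ := by
    refine le_trans (le_of_eq ?_) (int_SS_le μ D hμ)
    exact integral_congr_ae (Eventually.of_forall fun f =>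
      (trace_sq (D.S_symm f) (D.ev_spec hEig f).2.2.2.2).symm)
  have hrig : (∀ i f, D.ev i f = 2 * χ i) → ∀ t f, D.K (D.Φ t f) = D.K f := fun h t f =>
    (hPar m X D (rigid μ D hEig hN hUp hRig hY hlow h) t f).2
  have hlimA := log_area_lim μ D hμ hArea hEig hKy hY hZ
  rw [← hS] at hlimA
  refine ⟨χ, hanti, hχ, hS, hlim, by linarith, fun h => hrig (hQ2 (by linarith)), _, hlimA,
    neg_le_neg hJ1, fun h => hrig (hJ2 (neg_injective h).ge), fun hK hcst => ?_⟩
  have hev := ev_of_const μ D hN hUp hConv hY hlimN hK hcst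
  obtain ⟨hUV, -, -⟩ := hConv m X D hK
  constructor
  · have h1 : ∫ f, (D.S f * D.S f).trace ∂μ = 4 * ∑ i, χ i ^ 2 := by
      have h2 : ∀ f, (D.S f * D.S f).trace = 4 * ∑ i, χ i ^ 2 := fun f => by
        rw [trace_sq (D.S_symm f) (D.ev_spec hEig f).2.2.2.2, Finset.mul_sum]
        simp only [hev]
        exact Finset.sum_congr rfl fun i _ => by ring
      simp only [h2, integral_const, probReal_univ, one_smul]
    have h3 : ∫ f, (D.S f * D.S f).trace ∂μ = 4 * ∫ f, (D.K f).trace ∂μ := by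
      have h4 : ∀ f, (D.S f * D.S f).trace = 4 * (D.U f * D.U f).trace := fun f => by
        unfold Sys.S
        rw [← hUV, ← two_smul ℝ (D.U f), Matrix.smul_mul, Matrix.mul_smul, smul_smul,
          Matrix.trace_smul, smul_eq_mul]
        norm_num
      simp only [h4]
      rw [integral_const_mul, int_UU μ D hμ]
    linarith
  · simp only [hev, integral_const, probReal_univ, one_smul]

end Vale.Agent.P207.SPH
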