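import Vale.Agent.P207.SPH.Geo
import Vale.Agent.P207.H118.EDefs

/-!
# P207, SPH: the Ricci curvature is minus the trace of `Km`
-/

open scoped Manifold ContDiff ENNReal Topology Matrix
open Bundle MeasureTheory Set Filter

set_option maxSynthPendingDepth 3
set_option linter.unusedSectionVars false

noncomputable section

namespace Vale.Agent.P207.SPH.Ric

open Vale.Agent.P255 (RMetric coefIn Riem)
open Vale.Agent.P207 Vale.Agent.P207.Q Vale.Agent.P207.Q.H130

variable {m : ℕ} {M : Type} [TopologicalSpace M] [ChartedSpace (EV (m + 1)) M]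
  [IsManifold 𝓘(ℝ, EV (m + 1)) ∞ M] {g : RMetric (EV (m + 1)) M}

/-- the trace in the standard basis and in an orthonormal frame -/
theorem sum_coord_eq (f : Fr g) (T : EV (m + 1) →ₗ[ℝ] EV (m + 1)) :
    ∑ i, T (P207F.stdB (m + 1) i) i = ∑ i, innerB g f.pt (T (f.e i)) (f.e i) := by
  have hinn : ∀ i j, innerB g f.pt (f.e i) (f.e j) = if i = j then 1 else 0 :=
    H832.N4.inner_ee f
  have hli : LinearIndependent ℝ (fun i => (f.e i : EV (m + 1))) := by
    rw [Fintype.linearIndependent_iff]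
    intro c hc i
    have h1 : innerB g f.pt (∑ j, c j • f.e j) (f.e i) = c i := by
      simp [map_sum, map_smul, hinn]
    rw [hc] at h1
    simpa using h1.symm
  let b := basisOfLinearIndependentOfCardEqFinrank hli (by simp)
  have hb : ∀ i, b i = f.e i := fun i => by simp [b]
  have hrepr : ∀ (w : EV (m + 1)) i, b.repr w i = innerB g f.pt w (f.e i) := by
    intro w i
    conv_rhs => rw [← b.sum_repr w]
    simp [hb, hinn, map_sum, map_smul]
  have h1 := LinearMap.trace_eq_matrix_trace ℝ b T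
  have h2 := LinearMap.trace_eq_matrix_trace ℝ (EuclideanSpace.basisFun (Fin (m + 1)) ℝ).toBasis T
  rw [h1] at h2
  simp only [Matrix.trace, Matrix.diag_apply, LinearMap.toMatrix_apply, hb, hrepr] at h2
  rw [h2]
  refine Finset.sum_congr rfl fun i _ => ?_
  simp [P207F.stdB]

/-- the Ricci curvature is minus the trace of `Km` -/
theorem ricUT_eq (f : Fr g) : P207F.ricUT g (f.ut 0) = -(Km g f).trace := by
  set u := chartAt (EV (m + 1)) f.pt f.pt with hu
  set T : EV (m + 1) →L[ℝ] EV (m + 1) :=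
    (ContinuousLinearMap.apply ℝ (EV (m + 1)) (f.e 0 : EV (m + 1))) ∘L
      ((D1.curvT ((mt g).coef f.pt) u).flip (f.e 0)) with hTdef
  have hT : ∀ w, T w = D1.curvT ((mt g).coef f.pt) u w (f.e 0) (f.e 0) := fun w => rfl
  have hR : ∀ w, Riem (coefIn g f.pt) u w (f.e 0) (f.e 0) = T w := fun w => by
    rw [hT, hu]
    exact D1.riem_mt g f.pt (mem_chart_target _ _) _ _ _
  have h1 : P207F.ricUT g (f.ut 0) = ∑ i, (T : EV (m + 1) →ₗ[ℝ] EV (m + 1))
      (P207F.stdB (m + 1) i) i := by
    refine Finset.sum_congr rfl fun i _ => ?_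
    exact congrArg (fun v : EV (m + 1) => v i) (hR (P207F.stdB (m + 1) i))
  have h2 : (Km g f).trace = - ∑ i : Fin m, innerB g f.pt (T (f.e i.succ)) (f.e i.succ) := by
    rw [← Finset.sum_neg_distrib]
    refine Finset.sum_congr rfl fun i _ => ?_
    have e1 : (Km g f).diag i = -(mt g).coef f.pt (chartAt (EV (m + 1)) f.pt f.pt)
      (D1.curvT ((mt g).coef f.pt) (chartAt (EV (m + 1)) f.pt f.pt) (f.e i.succ) (f.e 0) (f.e 0))
        (f.e i.succ) := rfl
    rw [e1, ← hu, ← hT]
    have e2 : ∀ a b : EV (m + 1), (mt g).coef f.pt u a b = innerB g f.pt a b := fun a b => by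
      rw [hu, ← H717.coefIn_self' (g := g)]
      rfl
    rw [e2]
  rw [h1, sum_coord_eq f, Fin.sum_univ_succ, h2, neg_neg]
  have h3 : T (f.e 0) = 0 := by
    rw [hT]
    simp [D1.curvT]
  simp [h3]

end Vale.Agent.P207.SPH.Ric
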