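import Vale.Agent.P207.SPH.H40.Wrap
import Vale.Agent.P207.SPH.H40.Main3
import Vale.Agent.P207.SPH.H40.Ric
import Vale.Agent.P207.SPH.Pub2

/-!
# P207, SPH: exponents, Ricci curvature, geometric mean: the final statement from the rows
-/

open scoped Manifold ContDiff ENNReal Topology Matrix
open Bundle MeasureTheory Set Filter

set_option maxSynthPendingDepth 3
set_option linter.unusedSectionVars false

noncomputable section

namespace Vale.Agent.P207.SPH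

open Vale.Agent.P255 (RMetric innerAt coefIn Gam Riem IsGeo IsJac fieldIn)
open Vale.Agent.P207 Vale.Agent.P207.Q Vale.Agent.P207.Q.H130
open Vale.Agent.P207F (Spread jvolAlong jvol velo geoFlow vol liou meanArea IsLyap SphereArea
  AreaCriterion hLiou hTop RicciSquare GeometricMean)

variable {m : ℕ} {M : Type} [TopologicalSpace M] [ChartedSpace (EV (m + 1)) M]
  [IsManifold 𝓘(ℝ, EV (m + 1)) ∞ M] [CompactSpace M] [T2Space M] [ConnectedSpace M]
  [MeasurableSpace M] [BorelSpace M] {g : RMetric (EV (m + 1)) M}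

/-- the conclusion of `main3_of` -/
def Main3Stmt : Prop := ∀ (m : ℕ) (X : Type) [TopologicalSpace X] [CompactSpace X]
    [MeasurableSpace X] [BorelSpace X] (μ : Measure X) [IsProbabilityMeasure μ]
    [μ.IsOpenPosMeasure] (D : Sys m X) (Y Z : ℝ → X → Mt m),
    (∀ t, MeasurePreserving (D.Φ t) μ μ) →
    ∫ f, (D.V f).trace ∂μ = ∫ f, (D.U f).trace ∂μ →
    Fund D D.U Y → Fund D (fun f => -D.V f) Z →
    ∃ χ : Fin m → ℝ, Antitone χ ∧ (∀ i, 0 < χ i) ∧
      ∑ i, χ i = ∫ f, (D.U f).trace ∂μ ∧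
      (∀ k ≤ m, Tendsto (fun T : ℝ => (∫ f, Real.log (topV k ((D.A Y Z T f)ᵀ * D.A Y Z T f)) ∂μ) /
        (2 * T)) atTop (𝓝 (psum k χ))) ∧
      ∑ i, χ i ^ 2 ≤ ∫ f, (D.K f).trace ∂μ ∧
      (∑ i, χ i ^ 2 = ∫ f, (D.K f).trace ∂μ → ∀ t f, D.K (D.Φ t f) = D.K f) ∧
      (∃ δ, Tendsto (fun T : ℝ => ∫ f, Real.log (D.A Y Z T f).det ∂μ - T * ∑ i, χ i) atTop (𝓝 δ) ∧
        -∑ i, Real.log (2 * χ i) ≤ δ ∧
        (δ = -∑ i, Real.log (2 * χ i) → ∀ t f, D.K (D.Φ t f) = D.K f) ∧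
        ((∀ t f, D.K (D.Φ t f) = D.K f) → (∃ c : ℕ → ℝ, ∀ k ≤ m, ∀ f, sg k (D.S f) = c k) →
          ∑ i, χ i ^ 2 = ∫ f, (D.K f).trace ∂μ ∧ δ = -∑ i, Real.log (2 * χ i)))

theorem final3_of (hMain : Main3Stmt) (hArea : AreaStmt) (hComp : CompStmt) (hConv : ConvStmt)
    (hFund : FundStmt) (hKy : KyStmt)
    (hEig : EigStmt) (hSys : SysGeoStmt) (hJac : JacGeoStmt) (hLoc : LocGeoStmt)
    (hUn : UniqGeoStmt) (h2 : 2 ≤ m) (hN : P207F.NegCurvature g) :
    ∃ χ : Fin m → ℝ, IsLyap (P207F.stdB (m + 1)) g χ ∧ (∀ i, 0 < χ i) ∧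
      hLiou (P207F.stdB (m + 1)) g ≤ ENNReal.ofReal (∑ i, χ i) ∧
      ENNReal.ofReal (∑ i, χ i) ≤ hTop g ∧ RicciSquare g χ ∧ GeometricMean g χ := by
  have hW := P207F.wellDefined (by omega : 2 ≤ m + 1) g
  have hφ : IsGeoFlow g (geoFlow g) := (hW.1 _).2 rfl
  have hμ : IsRiemVol g (vol (P207F.stdB (m + 1)) g) := (hW.2.1 _).2 rfl
  have hm : IsLiouville g (vol (P207F.stdB (m + 1)) g) (liou (P207F.stdB (m + 1)) g) :=
    (hW.2.2 _).2 rfl
  obtain ⟨hcomp, D, mP, hΦ, hK, hut, hsurj, hprob, hop, hmp, hutmp, hflip, hcst, hRu, hMa⟩ :=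
    hSys m h2 M g hN _ _ _ hφ hμ hm
  obtain ⟨Y, hY⟩ := hFund m (Fr g) D D.U D.cU
  obtain ⟨Z, hZ⟩ := hFund m (Fr g) D (fun f => -D.V f) D.cV.neg
  obtain ⟨χ, hanti, hpos, hsum, hlim, hsq, hsqe, δ, hδ, hδle, hδe, hsym⟩ :=
    hMain m (Fr g) mP D Y Z hmp hflip hY hZ
  have hj : ∀ k T (f : Fr g), jvol g k T (f.ut 0) = topV k ((D.A Y Z T f)ᵀ * D.A Y Z T f) := by
    intro k T f
    unfold jvol
    have h1 : (fun t => (geoFlow g t (f.ut 0)).pt) = fun t => (D.Φ t f).pt := by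
      funext t
      rw [hut t f]
      rfl
    rw [h1]
    exact jvolAlong_frame hJac hUn h2 D hΦ hK hcomp hY hZ f k T
  have hcut : Continuous fun f : Fr g => f.ut 0 := Fr.continuous_ut 0
  have := compactSpace_UT g
  have := t2Space_UT g
  have := hcomp
  have hq : Topology.IsQuotientMap fun f : Fr g => f.ut 0 :=
    (hcut.isClosedMap).isQuotientMap hcut fun p => hsurj p
  have hint : ∀ F : UT g → ℝ, Continuous (fun f : Fr g => F (f.ut 0)) →
      ∫ v, F v ∂(liou (P207F.stdB (m + 1)) g) = ∫ f, F (f.ut 0) ∂mP := by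
    intro F hF
    have hFc : Continuous F := hq.continuous_iff.2 hF
    rw [← hutmp.map_eq]
    exact integral_map hutmp.measurable.aemeasurable hFc.aestronglyMeasurable
  obtain ⟨C, T₀, -, hA⟩ := hArea m (Fr g) D Y Z hY hZ
  have hric : -∫ v, P207F.ricUT g v ∂(liou (P207F.stdB (m + 1)) g) =
      ∫ f, (D.K f).trace ∂mP := by
    have h3 : ∀ f : Fr g, P207F.ricUT g (f.ut 0) = -(D.K f).trace := fun f => by
      rw [Ric.ricUT_eq, hK]
    rw [hint (fun v => P207F.ricUT g v) (by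
      simp only [h3]
      exact D.cK.matrix_trace.neg)]
    simp only [h3]
    rw [integral_neg, neg_neg]
  have hlog : ∀ᶠ T in atTop, ∫ v, Real.log (Real.sqrt (jvol g (m + 1 - 1) T v))
      ∂(liou (P207F.stdB (m + 1)) g) = ∫ f, Real.log (D.A Y Z T f).det ∂mP := by
    filter_upwards [eventually_ge_atTop T₀] with T hT
    have h3 : ∀ f : Fr g, Real.sqrt (jvol g (m + 1 - 1) T (f.ut 0)) = (D.A Y Z T f).det := by
      intro f
      rw [hj, Nat.add_sub_cancel, topV_top hEig, Real.sqrt_sq (hA T hT f).1.le]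
    refine (hint (fun v => Real.log (Real.sqrt (jvol g (m + 1 - 1) T v))) ?_).trans ?_
    · simp only [h3]
      exact (det_A_cont hEig D hY hZ T).log fun f => (hA T hT f).1.ne'
    · exact integral_congr_ae (Eventually.of_forall fun f => congrArg Real.log (h3 f))
  have hLS : (∀ t f, D.K (D.Φ t f) = D.K f) ↔ P207F.LocSymmetric g := by
    have h3 := hLoc m h2 M g D.Φ hΦ
    simp only [hK]
    exact h3
  have hsym' : P207F.LocSymmetric g → ∑ i, χ i ^ 2 = ∫ f, (D.K f).trace ∂mP ∧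
      δ = -∑ i, Real.log (2 * χ i) := fun hS => by
    have hKc := hLS.2 hS
    obtain ⟨hUV, hUc, -⟩ := hConv m (Fr g) D hKc
    have hc : ∀ k ≤ m, ∃ c, ∀ f, sg k (D.S f) = c := fun k hk => hcst k hk fun t f => by
      unfold Sys.S
      rw [← hUV, ← hUV, hUc]
    choose! c hc using hc
    exact hsym hKc ⟨c, hc⟩
  refine ⟨χ, ⟨hanti, fun k hk => ?_⟩, hpos, ?_, ?_, ⟨?_, ?_, ?_⟩, δ, ?_, hδle, ?_, ?_⟩
  · obtain ⟨C', T₁, hC', hB⟩ := hComp m (Fr g) D Y Z hY hZ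
    refine (hlim k hk).congr' ?_
    filter_upwards [eventually_ge_atTop T₁] with T hT
    rw [hint (fun v => Real.log (jvol g k T v)) ?_]
    · simp only [hj]
    · simp only [hj]
      refine (topV_cont hKy hEig D hY hZ hk T).log fun f => ?_
      obtain ⟨h3, h4, -⟩ := hB T hT f k hk
      exact (lt_of_lt_of_le (mul_pos (inv_pos.2 hC') h3) h4).ne'
  · rw [hsum]; exact hRu
  · rw [hsum]; exact hMa
  · rw [hric]; exact hsq
  · intro hS
    rw [hric]; exact (hsym' hS).1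
  · intro h
    rw [hric] at h
    exact hLS.1 (hsqe h)
  · refine hδ.congr' ?_
    filter_upwards [hlog] with T h4
    rw [← h4]
    rfl
  · exact fun hS => (hsym' hS).2
  · exact fun h => hLS.1 (hδe h)

theorem wrap3_of (hMain : Main3Stmt) (hArea : AreaStmt) (hComp : CompStmt) (hConv : ConvStmt)
    (hFund : FundStmt) (hKy : KyStmt)
    (hEig : EigStmt) (hSys : SysGeoStmt) (hJac : JacGeoStmt) (hLoc : LocGeoStmt)
    (hUn : UniqGeoStmt)
    (n : ℕ) (hn : 3 ≤ n) (M : Type) [TopologicalSpace M] [CompactSpace M] [T2Space M]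
    [ConnectedSpace M] [ChartedSpace (P207F.EV n) M] [IsManifold 𝓘(ℝ, P207F.EV n) ∞ M]
    [MeasurableSpace M] [BorelSpace M] :
    (∀ g : RMetric (P207F.EV n) M, P207F.WellDefined (P207F.stdB n) g) ∧
    ∀ g : RMetric (P207F.EV n) M, P207F.NegCurvature g →
      ∃ χ : Fin (n - 1) → ℝ, IsLyap (P207F.stdB n) g χ ∧ (∀ i, 0 < χ i) ∧
        P207F.hLiou (P207F.stdB n) g ≤ ENNReal.ofReal (∑ i, χ i) ∧
        ENNReal.ofReal (∑ i, χ i) ≤ P207F.hTop g ∧
        RicciSquare g χ ∧ GeometricMean g χ := by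
  refine ⟨fun g => P207F.wellDefined (by omega) g, fun g hN => ?_⟩
  obtain ⟨m, rfl⟩ : ∃ m, n = m + 1 := ⟨n - 1, by omega⟩
  exact final3_of (m := m) hMain hArea hComp hConv hFund hKy hEig hSys hJac hLoc hUn (by omega : 2 ≤ m) hN

end Vale.Agent.P207.SPH
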