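import Vale.Agent.P207.SPH.H40.Avg

/-!
# P207, SPH: the abstract theorem from the rows
-/

open Matrix MeasureTheory Set Filter Topology

noncomputable section

namespace Vale.Agent.P207.SPH

variable {m : ℕ} {X : Type} [TopologicalSpace X]

/-- the `i`-th eigenvalue of `S` -/
def Sys.ev (D : Sys m X) (i : Fin m) (f : X) : ℝ := sg (i + 1) (D.S f) - sg i (D.S f)

theorem psum_succ {e : Fin m → ℝ} (i : Fin m) : psum ((i : ℕ) + 1) e - psum i e = e i := by
  unfold psum
  rw [← Finset.sum_sub_distrib, Finset.sum_eq_single i]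
  · simp
  · intro j _ hj
    have h1 : (j : ℕ) ≠ i := fun h => hj (Fin.ext h)
    by_cases h : (j : ℕ) < i
    · rw [if_pos (by omega), if_pos h, sub_self]
    · rw [if_neg (by omega), if_neg h, sub_self]
  · intro h
    exact absurd (Finset.mem_univ i) h

theorem psum_top (e : Fin m → ℝ) : psum m e = ∑ i, e i := by
  unfold psum
  exact Finset.sum_congr rfl fun i _ => if_pos i.2

theorem psum_mul (c : ℝ) (k : ℕ) (e : Fin m → ℝ) : psum k (fun i => c * e i) = c * psum k e := by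
  unfold psum
  rw [Finset.mul_sum]
  exact Finset.sum_congr rfl fun i _ => by split_ifs <;> simp

theorem Sys.S_symm (D : Sys m X) (f : X) : (D.S f)ᵀ = D.S f := by
  unfold Sys.S
  rw [Matrix.transpose_add, D.sU, D.sV]

theorem Sys.S_lo (D : Sys m X) (f : X) (x : Fin m → ℝ) :
    2 * D.a * (x ⬝ᵥ x) ≤ x ⬝ᵥ (D.S f *ᵥ x) := by
  unfold Sys.S
  rw [Matrix.add_mulVec, dotProduct_add]
  have h1 := D.loU f x
  have h2 := D.loV f x
  linarith

theorem Sys.ev_spec (hEig : EigStmt) (D : Sys m X) (f : X) :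
    Antitone (fun i => D.ev i f) ∧ (D.S f).det = ∏ i, D.ev i f ∧
      (D.S f).trace = ∑ i, D.ev i f ∧ (∀ i, 2 * D.a ≤ D.ev i f) ∧
      ∀ k ≤ m, sg k (D.S f) = psum k fun i => D.ev i f := by
  obtain ⟨e, h1, h2, h3, h4, h5, -⟩ := hEig m (D.S f) (D.S_symm f)
  have he : (fun i => D.ev i f) = e := by
    funext i
    unfold Sys.ev
    rw [h5 _ i.2, h5 _ i.2.le, psum_succ]
  have he' : ∀ i, D.ev i f = e i := fun i => congrFun he i
  rw [he]
  simp only [he']
  exact ⟨h1, h2, h3, fun i => h4 _ (fun x => D.S_lo f x) i, h5⟩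

theorem Sys.ev_cont (hKy : KyStmt) (D : Sys m X) (i : Fin m) : Continuous (D.ev i) :=
  ((hKy m _ i.2).1.comp D.cS).sub ((hKy m _ i.2.le).1.comp D.cS)

theorem Sys.ev_pos (hEig : EigStmt) (D : Sys m X) (i : Fin m) (f : X) : 0 < D.ev i f :=
  lt_of_lt_of_le (mul_pos two_pos D.a_pos) ((D.ev_spec hEig f).2.2.2.1 i)

theorem Sys.log_det (hEig : EigStmt) (D : Sys m X) (f : X) :
    Real.log (D.S f).det = ∑ i, Real.log (D.ev i f) := by
  rw [(D.ev_spec hEig f).2.1, Real.log_prod]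
  exact fun i _ => (D.ev_pos hEig i f).ne'

theorem Sys.detS_pos (hEig : EigStmt) (D : Sys m X) (f : X) : 0 < (D.S f).det := by
  rw [(D.ev_spec hEig f).2.1]
  exact Finset.prod_pos fun i _ => D.ev_pos hEig i f

theorem det_A_eq (D : Sys m X) (Y Z : ℝ → X → Mt m) (T : ℝ) (f : X) :
    (D.A Y Z T f).det = (Y T f - Z T f).det * ((D.S f).det)⁻¹ := by
  unfold Sys.A
  rw [Matrix.det_mul, Matrix.det_nonsing_inv, Ring.inverse_eq_inv']

theorem det_A_cont (hEig : EigStmt) (D : Sys m X) {Y Z : ℝ → X → Mt m}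
    (hY : Fund D D.U Y) (hZ : Fund D (fun f => -D.V f) Z) (T : ℝ) :
    Continuous fun f => (D.A Y Z T f).det := by
  simp only [det_A_eq]
  have hYT : Continuous fun f => Y T f := hY.cont.comp (Continuous.prodMk_right T)
  have hZT : Continuous fun f => Z T f := hZ.cont.comp (Continuous.prodMk_right T)
  exact (hYT.sub hZT).matrix_det.mul
    (D.cS.matrix_det.inv₀ fun f => (D.detS_pos hEig f).ne')

theorem Sys.log_ev_cont (hEig : EigStmt) (hKy : KyStmt) (D : Sys m X) :
    Continuous fun f => ∑ i, Real.log (D.ev i f) :=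
  continuous_finsetSum _ fun i _ => (D.ev_cont hKy i).log fun f => (D.ev_pos hEig i f).ne'

/-- the integral of `det A` -/
theorem area_lower [CompactSpace X] [MeasurableSpace X] [BorelSpace X] (μ : Measure X)
    [IsProbabilityMeasure μ] (D : Sys m X) {Y Z : ℝ → X → Mt m}
    (hμ : ∀ t, MeasurePreserving (D.Φ t) μ μ) (hArea : AreaStmt) (hEig : EigStmt) (hKy : KyStmt)
    (hY : Fund D D.U Y) (hZ : Fund D (fun f => -D.V f) Z) :
    ∃ C T₀ : ℝ, 0 ≤ C ∧ ∀ T, T₀ ≤ T → Real.exp (T * (∫ f, (D.U f).trace ∂μ)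
      - (∫ f, (∑ i, Real.log (D.ev i f)) ∂μ) - C * Real.exp (-(2 * D.a * T))) ≤
        ∫ f, (D.A Y Z T f).det ∂μ := by
  obtain ⟨C, T₀, hC, h⟩ := hArea m X D Y Z hY hZ
  refine ⟨C, max T₀ 0, hC, fun T hT => ?_⟩
  have hT0 : T₀ ≤ T := (le_max_left _ _).trans hT
  have hT1 : 0 ≤ T := (le_max_right _ _).trans hT
  have hc := det_A_cont hEig D hY hZ T
  have hpos := fun f => (h T hT0 f).1
  have hlc : Continuous fun f => Real.log (D.A Y Z T f).det := hc.log fun f => (hpos f).ne'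
  have hJ := convexOn_exp.map_integral_le (μ := μ) (f := fun f => Real.log (D.A Y Z T f).det)
    Real.continuous_exp.continuousOn isClosed_univ (Eventually.of_forall fun _ => mem_univ _)
    (integrable_cont μ hlc) (integrable_cont μ (Real.continuous_exp.comp hlc))
  have h2 : ∀ f, Real.exp (Real.log (D.A Y Z T f).det) = (D.A Y Z T f).det := fun f =>
    Real.exp_log (hpos f)
  simp only [h2] at hJ
  refine le_trans (Real.exp_le_exp.2 ?_) hJ
  have htr : Continuous fun f => (D.U f).trace := D.cU.matrix_trace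
  have hI : Continuous fun f => ∫ s in (0 : ℝ)..T, (D.U (D.Φ s f)).trace :=
    continuous_integral_flow D htr T
  have hle : ∀ f, (∫ s in (0 : ℝ)..T, (D.U (D.Φ s f)).trace) - (∑ i, Real.log (D.ev i f))
      - C * Real.exp (-(2 * D.a * T)) ≤ Real.log (D.A Y Z T f).det := by
    intro f
    have h3 := (abs_le.1 (h T hT0 f).2).1
    rw [D.log_det hEig] at h3
    linarith
  have h4 := integral_mono (μ := μ) (((integrable_cont μ hI).sub
    (integrable_cont μ (D.log_ev_cont hEig hKy))).sub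
      (integrable_const (C * Real.exp (-(2 * D.a * T))))) (integrable_cont μ hlc) hle
  refine le_trans (le_of_eq ?_) h4
  have h5 : ∫ f, (∫ s in (0 : ℝ)..T, (D.U (D.Φ s f)).trace) ∂μ = T * ∫ f, (D.U f).trace ∂μ :=
    integral_flow_nonneg μ D hμ htr hT1
  have h6 : ∫ f, ((∫ s in (0 : ℝ)..T, (D.U (D.Φ s f)).trace) - (∑ i, Real.log (D.ev i f))
      - C * Real.exp (-(2 * D.a * T))) ∂μ =
      ∫ f, ((∫ s in (0 : ℝ)..T, (D.U (D.Φ s f)).trace)) ∂μ - ∫ f, (∑ i, Real.log (D.ev i f)) ∂μ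
        - ∫ _, C * Real.exp (-(2 * D.a * T)) ∂μ := by
    rw [integral_sub, integral_sub]
    · exact integrable_cont μ hI
    · exact integrable_cont μ (D.log_ev_cont hEig hKy)
    · exact (integrable_cont μ hI).sub (integrable_cont μ (D.log_ev_cont hEig hKy))
    · exact integrable_const _
  refine Eq.trans ?_ h6.symm
  rw [h5, integral_const, probReal_univ, one_smul]

/-- the upper bound of `∫ log N` -/
theorem intN_le [CompactSpace X] [MeasurableSpace X] [BorelSpace X] (μ : Measure X)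
    [IsProbabilityMeasure μ] (D : Sys m X) {Y : ℝ → X → Mt m}
    (hμ : ∀ t, MeasurePreserving (D.Φ t) μ μ) (hKy : KyStmt) (hN : NStmt) (hUp : UpStmt)
    (hY : Fund D D.U Y) {k : ℕ} (hk : k ≤ m) {T : ℝ} (hT : 0 ≤ T) :
    ∫ f, Real.log (D.N Y k T f) ∂μ ≤ T * ∫ f, sg k (D.S f) ∂μ := by
  obtain ⟨-, hpos, hcont, -, -⟩ := hN m X D Y hY k hk
  have hsc : Continuous fun f => sg k (D.S f) := (hKy m k hk).1.comp D.cS
  rw [← integral_flow_nonneg μ D hμ hsc hT]
  refine integral_mono (integrable_cont μ ((hcont T).log fun f => (hpos T f).ne'))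
    (integrable_cont μ (continuous_integral_flow D hsc T)) fun f => ?_
  have h1 := Real.log_le_log (hpos T f) (hUp m X D Y hY k hk T hT f)
  rwa [Real.log_exp] at h1

end Vale.Agent.P207.SPH
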