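import Vale.Agent.P207.SPH.PubK
import Vale.Agent.P207.SPH.H40.RayP

/-!
# P207: curvature conditions along single rays and along all geodesics, the final statement
-/

open scoped Manifold ContDiff ENNReal
open Bundle MeasureTheory Set Filter Topology

noncomputable section

namespace Vale.Agent.P207F.Ray

open Vale.Agent.P255 (RMetric innerAt coefIn Gam Riem IsGeo)
open Vale.Agent.P207F

variable {n : ℕ} {M : Type} [TopologicalSpace M] [ChartedSpace (EV n) M]
  [IsManifold 𝓘(ℝ, EV n) ∞ M] [MeasurableSpace M] [CompactSpace M] [T2Space M] [ConnectedSpace M]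
  [BorelSpace M]

/-- **the statement for the pinched classes**, with averages along all geodesics -/
theorem ray_all (hn : 3 ≤ n)
    (hray : ∀ g : RMetric (EV n) M, NegCurvature g → RayIneq g)
    (hcore : ∀ g : RMetric (EV n) M, EntropyPinched g ∨ RicciEntropyPinched g → ∀ φ μ m,
      P207.IsGeoFlow g φ → P207.IsRiemVol g μ → P207.IsLiouville g μ m →
      P207.ksEntropy m (φ 1) = P207.topEntropy (φ 1) → ∃ κ, ConstCurvature g κ)
    (havg : ∀ g : RMetric (EV n) M, NegCurvature g → AvgPinched g → ∀ φ μ m,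
      P207.IsGeoFlow g φ → P207.IsRiemVol g μ → P207.IsLiouville g μ m →
      P207.ksEntropy m (φ 1) = P207.topEntropy (φ 1) → ∃ κ, ConstCurvature g κ) :
    (∀ g : RMetric (EV n) M, WellDefined (stdB n) g) ∧
    ∀ g : RMetric (EV n) M, NegCurvature g →
      (RayAbove g ∨ RayBelow g ∨ RayRicci g ∨ AvgPinched g) →
      hLiou (stdB n) g ≤ hTop g ∧
      (hLiou (stdB n) g = hTop g ↔ LocSymmetric g) ∧
      (hLiou (stdB n) g = hTop g ↔ ∃ κ : ℝ, 0 < κ ∧ ConstCurvature g κ) := by
  obtain ⟨hW, h1⟩ := ray_final hn hray hcore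
  refine ⟨hW, fun g hN h => ?_⟩
  by_cases h2 : RayAbove g ∨ RayBelow g ∨ RayRicci g
  · exact (h1 g hN).2 h2
  · have h3 : AvgPinched g := by
      rcases h with h | h | h | h
      · exact absurd (Or.inl h) h2
      · exact absurd (Or.inr (Or.inl h)) h2
      · exact absurd (Or.inr (Or.inr h)) h2
      · exact h
    obtain ⟨-, h4⟩ := QN.final_n (M := M) (by omega : 2 ≤ n)
      (P := fun g => NegCurvature g ∧ AvgPinched g)
      (fun _ h => h.1) (fun g h φ μ m hφ hμ hm heq => havg g h.1 h.2 φ μ m hφ hμ hm heq)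
    exact (h4 g ⟨hN, h3⟩).2

end Vale.Agent.P207F.Ray
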