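import Vale.Agent.P207.N7.Geo.Main
import Vale.Agent.P207.N7.Geo.LogicH
import Vale.Agent.P207.N7.Geo.LogicB
import Vale.Agent.P207.N4.H376.LogicG
import Vale.Agent.P207.N4.Geo.FinalH
import Vale.Agent.P207.N4.Geo.CoreG

/-!
# P207: the cores of the classes `EntropyPinched` and `RicciEntropyPinched`
-/

open scoped Manifold ContDiff ENNReal
open Bundle MeasureTheory Set Filter Topology

noncomputable section

namespace Vale.Agent.P207F.Ray

open Vale.Agent.P255 (RMetric)
open Vale.Agent.P207F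

theorem ray_core {n : ℕ} (hn : 3 ≤ n) {M : Type} [TopologicalSpace M] [ChartedSpace (EV n) M]
    [IsManifold 𝓘(ℝ, EV n) ∞ M] [CompactSpace M] [T2Space M] [ConnectedSpace M]
    [MeasurableSpace M] [BorelSpace M] (g : RMetric (EV n) M)
    (h : EntropyPinched g ∨ RicciEntropyPinched g) (φ : ℝ → P207.UT g → P207.UT g)
    (μ : Measure M) (m : Measure (P207.UT g))
    (hφ : P207.IsGeoFlow g φ) (hμ : P207.IsRiemVol g μ) (hm : P207.IsLiouville g μ m)
    (heq : P207.ksEntropy m (φ 1) = P207.topEntropy (φ 1)) : ∃ κ, ConstCurvature g κ := by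
  rcases h with h | h
  · exact P207.N4.core_of_entropy_n hn
      (fun {_} => P207.N4.Y.logicH_of P207.N4.Y.logicW) g h φ μ m hφ hμ hm heq
  · exact P207.N4.core_of_ricent_n hn
      (fun {_} => P207.N4.H376.logicG_of (P207.N4.Y.logicB_of P207.N4.Y.logicW)) g h φ μ m hφ hμ
      hm heq

end Vale.Agent.P207F.Ray
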