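import Vale.Agent.P207.SPH.PubS
import Vale.Agent.P207.SPH.H40.RayA

/-!
# P207: the classes with the short letters
-/

open scoped Manifold ContDiff ENNReal
open Bundle MeasureTheory Set Filter Topology

noncomputable section

namespace Vale.Agent.P207F.Ray

open Vale.Agent.P255 (RMetric innerAt coefIn Gam Riem IsGeo)
open Vale.Agent.P207F

variable {n : ℕ} {M : Type} [TopologicalSpace M] [ChartedSpace (EV n) M]
  [IsManifold 𝓘(ℝ, EV n) ∞ M]

theorem sumRoot_eq (g : RMetric (EV n) M) : sumRoot (n - 1) g = sqrtCurv g := rfl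

theorem lowRoot_eq (g : RMetric (EV n) M) : lowRoot g = leastCurv g := by
  funext p
  unfold lowRoot leastCurv IsPerp negSec
  simp only [and_assoc]

theorem topSec_eq (g : RMetric (EV n) M) : topSec g = topCurv g := by
  funext p
  unfold topSec topCurv IsPerp negSec
  simp only [and_assoc]

theorem above_iff (g : RMetric (EV n) M) : OneAbove n g (fun v => -ricUT g v) ↔ RayAbove g :=
  Iff.rfl

theorem below_iff (g : RMetric (EV n) M) : OneBelow n g ↔ RayBelow g := Iff.rfl

theorem ricci_iff (g : RMetric (EV n) M) : OneRicci n g (fun v => -ricUT g v) ↔ RayRicci g := by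
  unfold OneRicci RayRicci
  simp only [neg_le]
  exact Iff.rfl

theorem each_iff [MeasurableSpace M] (g : RMetric (EV n) M) :
    EachPinched (stdB n) g (fun v => -ricUT g v) ↔ AvgPinched g := by
  unfold EachPinched AvgPinched
  rw [lowRoot_eq, topSec_eq]
  refine forall_congr' fun v => ?_
  rw [exists_or, exists_or]
  exact Iff.rfl

variable [MeasurableSpace M] [CompactSpace M] [T2Space M] [ConnectedSpace M]
  [BorelSpace M]

/-- **the statement for the pinched classes**, in the short letters -/
theorem ray_short (hn : 3 ≤ n)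
    (hray : ∀ g : RMetric (EV n) M, NegCurvature g → RayIneq g)
    (hcore : ∀ g : RMetric (EV n) M, EntropyPinched g ∨ RicciEntropyPinched g → ∀ φ μ m,
      P207.IsGeoFlow g φ → P207.IsRiemVol g μ → P207.IsLiouville g μ m →
      P207.ksEntropy m (φ 1) = P207.topEntropy (φ 1) → ∃ κ, ConstCurvature g κ)
    (havg : ∀ g : RMetric (EV n) M, NegCurvature g → AvgPinched g → ∀ φ μ m,
      P207.IsGeoFlow g φ → P207.IsRiemVol g μ → P207.IsLiouville g μ m →
      P207.ksEntropy m (φ 1) = P207.topEntropy (φ 1) → ∃ κ, ConstCurvature g κ) :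
    (∀ g : RMetric (EV n) M, WellDefined (stdB n) g) ∧
    ∀ g : RMetric (EV n) M, NegCurvature g →
      (OneAbove n g (fun v => -ricUT g v) ∨ OneBelow n g ∨ OneRicci n g (fun v => -ricUT g v) ∨
        EachPinched (stdB n) g (fun v => -ricUT g v)) →
      hLiou (stdB n) g ≤ hTop g ∧
      (hLiou (stdB n) g = hTop g ↔ LocSymmetric g) ∧
      (hLiou (stdB n) g = hTop g ↔ ∃ κ : ℝ, 0 < κ ∧ ConstCurvature g κ) := by
  obtain ⟨hW, h1⟩ := ray_all hn hray hcore havg
  refine ⟨hW, fun g hN h => h1 g hN ?_⟩
  rwa [above_iff, below_iff, ricci_iff, each_iff] at h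

end Vale.Agent.P207F.Ray
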