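import Vale.Agent.P207.SPH.H40.Main2
import Vale.Agent.P207.SPH.H761.Jensen
import Vale.Agent.P207.SPH.H234.Eig

/-!
# P207, SPH: the squares of the exponents
-/

open Matrix MeasureTheory Set Filter Topology

noncomputable section

namespace Vale.Agent.P207.SPH

variable {m : ℕ} {X : Type} [TopologicalSpace X]

/-- Abel summation -/
theorem abel_nonneg (x d : Fin m → ℝ) (hx : Antitone x) (hd : ∀ k ≤ m, 0 ≤ psum k d)
    (h0 : ∑ i, d i = 0) : 0 ≤ ∑ i, x i * d i := by
  have h1 : ∑ i, x i * d i = ∑ i ∈ Finset.range m, H761.ext0 x i • H761.ext0 d i := by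
    rw [H761.sum_eq_ext]
    refine Finset.sum_congr rfl fun i hi => ?_
    have := Finset.mem_range.1 hi
    simp [H761.ext0, this]
  have h2 : ∑ i ∈ Finset.range m, H761.ext0 d i = 0 := by
    rw [← H761.sum_eq_ext, h0]
  rw [h1, Finset.sum_range_by_parts, h2, smul_zero, zero_sub, neg_nonneg]
  refine Finset.sum_nonpos fun i hi => ?_
  have hi' : i + 1 < m := by
    have := Finset.mem_range.1 hi
    omega
  rw [← H761.psum_eq _ hi'.le, smul_eq_mul]
  refine mul_nonpos_of_nonpos_of_nonneg ?_ (hd _ hi'.le)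
  have h3 : H761.ext0 x (i + 1) = x ⟨i + 1, hi'⟩ := by simp [H761.ext0, hi']
  have h4 : H761.ext0 x i = x ⟨i, by omega⟩ := by simp [H761.ext0, show i < m by omega]
  rw [h3, h4, sub_nonpos]
  exact hx (by simp)

/-- the trace of the square -/
theorem trace_sq {S : Mt m} (hS : Sᵀ = S) {e : Fin m → ℝ} (he : ∀ k ≤ m, sg k S = psum k e) :
    (S * S).trace = ∑ i, e i ^ 2 := by
  obtain ⟨O, e', hO, -, h1, h2⟩ := H234.eigD m S hS
  have h3 : e' = e := by
    funext i
    rw [← psum_succ (e := e') i, ← psum_succ (e := e) i, ← h2 _ i.2, ← h2 _ i.2.le, he _ i.2,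
      he _ i.2.le]
  have hO' : O * Oᵀ = 1 := mul_eq_one_comm.1 hO
  have h4 : S * S = O * (Matrix.diagonal e * Matrix.diagonal e) * Oᵀ := by
    rw [h1, h3]
    calc O * Matrix.diagonal e * Oᵀ * (O * Matrix.diagonal e * Oᵀ)
        = O * Matrix.diagonal e * (Oᵀ * O) * Matrix.diagonal e * Oᵀ := by
          simp only [Matrix.mul_assoc]
      _ = _ := by rw [hO, Matrix.mul_one]; simp only [Matrix.mul_assoc]
  rw [h4, Matrix.trace_mul_comm, ← Matrix.mul_assoc, hO, Matrix.one_mul, Matrix.diagonal_mul_diagonal,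
    Matrix.trace_diagonal]
  exact Finset.sum_congr rfl fun i _ => (sq _).symm

/-- parallelogram -/
theorem trace_sq_add {P Q : Mt m} (hP : Pᵀ = P) (hQ : Qᵀ = Q) :
    ((P + Q) * (P + Q)).trace ≤ 2 * (P * P).trace + 2 * (Q * Q).trace := by
  have h1 : 0 ≤ ((P - Q) * (P - Q)).trace := by
    have h2 : ((P - Q)ᵀ * (P - Q)).trace = ((P - Q) * (P - Q)).trace := by
      rw [Matrix.transpose_sub, hP, hQ]
    rw [← h2, Matrix.trace]
    refine Finset.sum_nonneg fun i _ => ?_
    rw [Matrix.diag_apply, Matrix.mul_apply]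
    exact Finset.sum_nonneg fun j _ => mul_self_nonneg _
  have h3 : ((P + Q) * (P + Q)).trace + ((P - Q) * (P - Q)).trace =
      2 * (P * P).trace + 2 * (Q * Q).trace := by
    rw [← Matrix.trace_add]
    have h4 : (P + Q) * (P + Q) + (P - Q) * (P - Q) = (2 : ℝ) • (P * P) + (2 : ℝ) • (Q * Q) := by
      rw [two_smul, two_smul]
      noncomm_ring
    rw [h4, Matrix.trace_add, Matrix.trace_smul, Matrix.trace_smul, smul_eq_mul, smul_eq_mul]
  linarith

section

variable [CompactSpace X] [MeasurableSpace X] [BorelSpace X] (μ : Measure X)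
  [IsProbabilityMeasure μ]

/-- a continuous function whose derivative along the flow is `F` : `∫ F = 0` -/
theorem integral_deriv_zero (D : Sys m X) (hμ : ∀ t, MeasurePreserving (D.Φ t) μ μ)
    {u F : X → ℝ} (hu : Continuous u) (hF : Continuous F)
    (hd : ∀ f t, HasDerivAt (fun s => u (D.Φ s f)) (F (D.Φ t f)) t) : ∫ f, F f ∂μ = 0 := by
  have h1 := integral_flow_nonneg μ D hμ hF zero_le_one
  rw [one_mul] at h1
  rw [← h1]
  have h2 : ∀ f, ∫ s in (0 : ℝ)..1, F (D.Φ s f) = u (D.Φ 1 f) - u f := fun f => by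
    rw [intervalIntegral.integral_eq_sub_of_hasDerivAt (fun t _ => hd f t), D.zero]
    exact (hF.comp (D.cont.comp (Continuous.prodMk_left f))).intervalIntegrable _ _
  simp only [h2]
  have h3 : ∫ f, u (D.Φ 1 f) ∂μ = ∫ f, u f ∂μ := by
    have h4 := (hμ 1).map_eq
    conv_rhs => rw [← h4]
    exact (integral_map (hμ 1).measurable.aemeasurable hu.aestronglyMeasurable).symm
  rw [integral_sub, h3, sub_self]
  · exact integrable_cont μ (hu.comp (D.cont.comp (Continuous.prodMk_right 1)))
  · exact integrable_cont μ hu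

theorem trace_deriv {M : ℝ → Mt m} {M' : Mt m} {t : ℝ} (h : MD M M' t) :
    HasDerivAt (fun s => (M s).trace) M'.trace t := by
  unfold Matrix.trace
  exact HasDerivAt.fun_sum fun i _ => h i i

theorem int_UU (D : Sys m X) (hμ : ∀ t, MeasurePreserving (D.Φ t) μ μ) :
    ∫ f, (D.U f * D.U f).trace ∂μ = ∫ f, (D.K f).trace ∂μ := by
  have hc1 : Continuous fun f => (D.U f * D.U f).trace := (D.cU.mul D.cU).matrix_trace
  have hc2 : Continuous fun f => (D.K f).trace := D.cK.matrix_trace
  have h := integral_deriv_zero μ D hμ (u := fun f => (D.U f).trace)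
    (F := fun f => (D.K f).trace - (D.U f * D.U f).trace) D.cU.matrix_trace (hc2.sub hc1)
    fun f t => by
      have h1 := trace_deriv (D.dU f t)
      rwa [Matrix.trace_sub] at h1
  rw [integral_sub (integrable_cont μ hc2) (integrable_cont μ hc1)] at h
  linarith

theorem int_VV (D : Sys m X) (hμ : ∀ t, MeasurePreserving (D.Φ t) μ μ) :
    ∫ f, (D.V f * D.V f).trace ∂μ = ∫ f, (D.K f).trace ∂μ := by
  have hc1 : Continuous fun f => (D.V f * D.V f).trace := (D.cV.mul D.cV).matrix_trace
  have hc2 : Continuous fun f => (D.K f).trace := D.cK.matrix_trace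
  have h := integral_deriv_zero μ D hμ (u := fun f => (D.V f).trace)
    (F := fun f => (D.V f * D.V f).trace - (D.K f).trace) D.cV.matrix_trace (hc1.sub hc2)
    fun f t => by
      have h1 := trace_deriv (D.dV f t)
      rwa [Matrix.trace_sub] at h1
  rw [integral_sub (integrable_cont μ hc1) (integrable_cont μ hc2)] at h
  linarith

theorem int_SS_le (D : Sys m X) (hμ : ∀ t, MeasurePreserving (D.Φ t) μ μ) :
    ∫ f, (D.S f * D.S f).trace ∂μ ≤ 4 * ∫ f, (D.K f).trace ∂μ := by
  have hc1 : Continuous fun f => (D.U f * D.U f).trace := (D.cU.mul D.cU).matrix_trace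
  have hc2 : Continuous fun f => (D.V f * D.V f).trace := (D.cV.mul D.cV).matrix_trace
  have hc3 : Continuous fun f => (D.S f * D.S f).trace := (D.cS.mul D.cS).matrix_trace
  have h1 := integral_mono (μ := μ) (integrable_cont μ hc3)
    (((integrable_cont μ hc1).const_mul 2).add ((integrable_cont μ hc2).const_mul 2))
    fun f => trace_sq_add (D.sU f) (D.sV f)
  refine h1.trans (le_of_eq ?_)
  have h2 : ∫ f, (2 * (D.U f * D.U f).trace + 2 * (D.V f * D.V f).trace) ∂μ =
      2 * ∫ f, (D.U f * D.U f).trace ∂μ + 2 * ∫ f, (D.V f * D.V f).trace ∂μ := by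
    rw [integral_add ((integrable_cont μ hc1).const_mul 2) ((integrable_cont μ hc2).const_mul 2),
      integral_const_mul, integral_const_mul]
  refine Eq.trans h2 ?_
  rw [int_UU μ D hμ, int_VV μ D hμ]
  ring

/-- the inequality of the squares -/
theorem sq_le [μ.IsOpenPosMeasure] {e : Fin m → X → ℝ} {χ : Fin m → ℝ}
    (hc : ∀ i, Continuous (e i)) (hanti : Antitone χ)
    (hk : ∀ k ≤ m, 2 * psum k χ ≤ ∫ f, psum k (fun i => e i f) ∂μ)
    (htot : 2 * ∑ i, χ i = ∫ f, (∑ i, e i f) ∂μ) :
    4 * ∑ i, χ i ^ 2 ≤ ∫ f, (∑ i, e i f ^ 2) ∂μ ∧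
    (∫ f, (∑ i, e i f ^ 2) ∂μ ≤ 4 * ∑ i, χ i ^ 2 → ∀ i f, e i f = 2 * χ i) := by
  set E : Fin m → ℝ := fun i => ∫ f, e i f ∂μ with hE
  have hint : ∀ i, Integrable (e i) μ := fun i => integrable_cont μ (hc i)
  have hps : ∀ k, ∫ f, psum k (fun i => e i f) ∂μ = psum k E := fun k => by
    unfold psum
    rw [integral_finsetSum]
    · refine Finset.sum_congr rfl fun i _ => ?_
      split_ifs
      · rfl
      · simp
    · intro i _
      split_ifs
      · exact hint i
      · exact integrable_const _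
  have hsub : ∀ k, psum k (fun i => E i - 2 * χ i) = psum k E - 2 * psum k χ := fun k => by
    unfold psum
    rw [Finset.mul_sum, ← Finset.sum_sub_distrib]
    refine Finset.sum_congr rfl fun i _ => ?_
    split_ifs <;> ring
  have hsumE : ∫ f, (∑ i, e i f) ∂μ = ∑ i, E i := integral_finsetSum _ fun i _ => hint i
  have hA := abel_nonneg χ (fun i => E i - 2 * χ i) hanti
    (fun k hk' => by rw [hsub, ← hps]; linarith [hk k hk'])
    (by rw [Finset.sum_sub_distrib, ← Finset.mul_sum, ← hsumE, htot, sub_self])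
  have hA' : ∑ i, χ i * (E i - 2 * χ i) = ∑ i, χ i * E i - 2 * ∑ i, χ i ^ 2 := by
    rw [Finset.mul_sum, ← Finset.sum_sub_distrib]
    exact Finset.sum_congr rfl fun i _ => by ring
  have hcs : Continuous fun f => ∑ i, e i f ^ 2 :=
    continuous_finsetSum _ fun i _ => (hc i).pow 2
  have hcd : Continuous fun f => ∑ i, (e i f - 2 * χ i) ^ 2 :=
    continuous_finsetSum _ fun i _ => ((hc i).sub continuous_const).pow 2
  have hcx : Continuous fun f => ∑ i, χ i * e i f :=
    continuous_finsetSum _ fun i _ => continuous_const.mul (hc i)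
  have hI : ∫ f, (∑ i, (e i f - 2 * χ i) ^ 2) ∂μ =
      ∫ f, (∑ i, e i f ^ 2) ∂μ - 4 * ∑ i, χ i * E i + 4 * ∑ i, χ i ^ 2 := by
    have h1 : ∀ f, ∑ i, (e i f - 2 * χ i) ^ 2 =
        (∑ i, e i f ^ 2) - 4 * (∑ i, χ i * e i f) + 4 * ∑ i, χ i ^ 2 := fun f => by
      rw [Finset.mul_sum, Finset.mul_sum, ← Finset.sum_sub_distrib, ← Finset.sum_add_distrib]
      exact Finset.sum_congr rfl fun i _ => by ring
    simp only [h1]
    have h2 : ∫ f, (∑ i, χ i * e i f) ∂μ = ∑ i, χ i * E i := by
      rw [integral_finsetSum _ fun i _ => (hint i).const_mul _]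
      exact Finset.sum_congr rfl fun i _ => integral_const_mul _ _
    rw [integral_add, integral_sub, integral_const_mul, h2, integral_const, probReal_univ,
      one_smul]
    · exact integrable_cont μ hcs
    · exact (integrable_cont μ hcx).const_mul 4
    · exact (integrable_cont μ hcs).sub ((integrable_cont μ hcx).const_mul 4)
    · exact integrable_const _
  have hnn : 0 ≤ fun f => ∑ i, (e i f - 2 * χ i) ^ 2 := fun f =>
    Finset.sum_nonneg fun i _ => sq_nonneg _
  have h0 := integral_nonneg (μ := μ) hnn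
  refine ⟨by linarith, fun h i f => ?_⟩
  have h6 := (integral_eq_zero_iff_of_nonneg hnn (integrable_cont μ hcd)).1
    (le_antisymm (by linarith) h0)
  have h7 := congrFun ((hcd.ae_eq_iff_eq μ continuous_zero).1 h6) f
  have h8 := (Finset.sum_eq_zero_iff_of_nonneg fun i _ => sq_nonneg (e i f - 2 * χ i)).1 h7 i
    (Finset.mem_univ i)
  nlinarith [pow_eq_zero_iff (two_ne_zero) |>.1 h8]

end

end Vale.Agent.P207.SPH
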