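import Vale.Agent.P207.SPH.Geo
import Vale.Agent.P207.SPH.Pub

/-!
# P207, SPH: `jvolAlong` in frames
-/

open scoped Manifold ContDiff ENNReal Topology Matrix
open Bundle MeasureTheory Set Filter

set_option maxSynthPendingDepth 3
set_option linter.unusedSectionVars false

noncomputable section

namespace Vale.Agent.P207.SPH

open Vale.Agent.P255 (RMetric innerAt coefIn Gam Riem IsGeo IsJac fieldIn)
open Vale.Agent.P207 Vale.Agent.P207.Q Vale.Agent.P207.Q.H130
open Vale.Agent.P207F (Spread jvolAlong jvol velo)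

variable {m : ℕ} {M : Type} [TopologicalSpace M] [ChartedSpace (EV (m + 1)) M]
  [IsManifold 𝓘(ℝ, EV (m + 1)) ∞ M] [CompactSpace M] [T2Space M] {g : RMetric (EV (m + 1)) M}

/-- a vector orthogonal to `e 0` in the frame -/
theorem expand_perp (f : Fr g) (w : EV (m + 1)) (h : innerB g f.pt w (f.e 0) = 0) :
    w = ∑ i : Fin m, innerB g f.pt w (f.e i.succ) • f.e i.succ := by
  have h1 := N4.H248J.expand_orth (innerB g f.pt) f.e (fun i j => f.inner_e i j) w
  rw [Fin.sum_univ_succ, h, zero_smul, zero_add] at h1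
  exact h1

theorem inner_comb (f : Fr g) (c c' : Fin m → ℝ) :
    innerB g f.pt (∑ i, c i • f.e i.succ) (∑ i, c' i • f.e i.succ) = c ⬝ᵥ c' := by
  simp only [map_sum, map_smul, FunLike.coe_sum, Finset.sum_apply,
    FunLike.coe_smul, Pi.smul_apply, smul_eq_mul, H832.N4.inner_ee, Fin.succ_inj]
  simp [dotProduct, mul_comm]

theorem gram_entry {k : ℕ} (A : Mt m) (W : Matrix (Fin m) (Fin k) ℝ) (i j : Fin k) :
    (Wᵀ * (Aᵀ * A) * W) i j = (A *ᵥ (fun l => W l i)) ⬝ᵥ (A *ᵥ (fun l => W l j)) := by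
  have h1 : Wᵀ * (Aᵀ * A) * W = (A * W)ᵀ * (A * W) := by
    rw [Matrix.transpose_mul]
    simp only [Matrix.mul_assoc]
  rw [h1, Matrix.mul_apply]
  rfl

theorem jvolAlong_frame (hJac : JacGeoStmt) (hUn : UniqGeoStmt) (h2 : 2 ≤ m) (D : Sys m (Fr g))
    {Y Z : ℝ → Fr g → Mt m} (hΦ : IsHorFlow g (Pi.single 0 1) D.Φ) (hK : ∀ f, D.K f = Km g f)
    (hcomp : CompactSpace (Fr g)) (hY : Fund D D.U Y) (hZ : Fund D (fun f => -D.V f) Z)
    (f : Fr g) (k : ℕ) (T : ℝ) :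
    jvolAlong g (fun t => (D.Φ t f).pt) k T = topV k ((D.A Y Z T f)ᵀ * D.A Y Z T f) := by
  obtain ⟨hc, hin⟩ := hJac m h2 M g D Y Z hΦ hK hcomp hY hZ f
  have hvel : (velo (E := EV (m + 1)) (fun t => (D.Φ t f).pt) 0 : EV (m + 1)) = (D.Φ 0 f).e 0 :=
    N4.H248J.velo_frame hΦ f 0
  have hdet : ∀ W : Matrix (Fin m) (Fin k) ℝ, ∀ J : Fin k → ∀ t,
      TangentSpace 𝓘(ℝ, EV (m + 1)) (D.Φ t f).pt, (∀ i t, J i t = cF D Y Z f (fun l => W l i) t) →
      (Matrix.of fun i j : Fin k => innerAt g (D.Φ T f).pt (J i T) (J j T)).det =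
        (Wᵀ * ((D.A Y Z T f)ᵀ * D.A Y Z T f) * W).det := by
    intro W J hJ
    congr 1
    ext i j
    rw [gram_entry, Matrix.of_apply, hJ, hJ]
    exact hin _ _ T
  unfold jvolAlong topV
  congr 1
  ext x
  constructor
  · rintro ⟨J, ⟨hJ, w, hw1, hw2, hw3⟩, hx⟩
    set W : Matrix (Fin m) (Fin k) ℝ :=
      Matrix.of fun j i => innerB g (D.Φ 0 f).pt (w i : EV (m + 1)) ((D.Φ 0 f).e j.succ) with hW
    have hexp : ∀ i, (w i : EV (m + 1)) = ∑ j : Fin m, W j i • (D.Φ 0 f).e j.succ := fun i =>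
      expand_perp (D.Φ 0 f) (w i) (by
        have h := hw2 i
        have h3 : innerB g (D.Φ 0 f).pt (w i : EV (m + 1))
          (velo (E := EV (m + 1)) (fun t => (D.Φ t f).pt) 0 : EV (m + 1)) = 0 := h
        rwa [hvel] at h3)
    have hWW : Wᵀ * W = 1 := by
      ext i j
      have h := hw1 i j
      have h3 : innerB g (D.Φ 0 f).pt (w i : EV (m + 1)) (w j : EV (m + 1)) =
        if i = j then 1 else 0 := h
      rw [hexp i, hexp j, inner_comb] at h3
      rw [Matrix.mul_apply, Matrix.one_apply]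
      exact h3
    refine ⟨W, hWW, ?_⟩
    rw [hx]
    refine hdet W J fun i => hUn m h2 M g D.Φ hΦ f (J i) _ (hJ i).1 (hc _).1 (hJ i).2 (hc _).2.1 ?_
    rw [(hc _).2.2, ← hexp i]
    exact hw3 i
  · rintro ⟨W, hWW, hx⟩
    refine ⟨fun i => cF D Y Z f (fun l => W l i), ⟨fun i => ⟨(hc _).1, (hc _).2.1⟩,
      fun i => (∑ j : Fin m, W j i • (D.Φ 0 f).e j.succ : EV (m + 1)), fun i j => ?_, fun i => ?_,
      fun i => (hc _).2.2⟩, ?_⟩
    · have h := congrFun (congrFun hWW i) j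
      rw [Matrix.mul_apply, Matrix.one_apply] at h
      rw [← h]
      exact inner_comb (D.Φ 0 f) _ _
    · have h := H832.N4.inner_sum_zero (D.Φ 0 f) (fun l => W l i)
      rw [← hvel] at h
      exact h
    · rw [hx, hdet W _ fun i t => rfl]

end Vale.Agent.P207.SPH
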