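import Vale.Agent.P207.SPH.H40.Fin

/-!
# P207, SPH: the final statement, dimension `n ≥ 3`
-/

open scoped Manifold ContDiff ENNReal Topology Matrix
open Bundle MeasureTheory Set Filter

noncomputable section

namespace Vale.Agent.P207.SPH

open Vale.Agent.P255 (RMetric)
open Vale.Agent.P207F

/-- the criterion follows from the bounds -/
theorem crit_of {n : ℕ} (hn : 2 ≤ n) {M : Type} [TopologicalSpace M] [CompactSpace M] [T2Space M]
    [ConnectedSpace M] [ChartedSpace (P207F.EV n) M] [IsManifold 𝓘(ℝ, P207F.EV n) ∞ M]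
    [MeasurableSpace M] [BorelSpace M] {g : RMetric (P207F.EV n) M} (hN : P207F.NegCurvature g)
    {χ : Fin (n - 1) → ℝ} (hpos : ∀ i, 0 < χ i)
    (h1 : P207F.hLiou (P207F.stdB n) g ≤ ENNReal.ofReal (∑ i, χ i))
    (h2 : ENNReal.ofReal (∑ i, χ i) ≤ P207F.hTop g)
    (h3 : P207F.SphereArea (P207F.stdB n) g χ) : P207F.AreaCriterion (P207F.stdB n) g χ := by
  have hW := P207F.wellDefined hn g
  have hφ := (hW.1 _).2 rfl
  have hμ := (hW.2.1 _).2 rfl
  have hm := (hW.2.2 _).2 rfl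
  have hS : P207F.hLiou (P207F.stdB n) g = P207F.hTop g →
      (P207F.hTop g).toReal = ∑ i, χ i := fun h => by
    rw [← le_antisymm h2 (h ▸ h1), ENNReal.toReal_ofReal]
    exact Finset.sum_nonneg fun i _ => (hpos i).le
  constructor
  · intro hL
    have h4 : P207F.hLiou (P207F.stdB n) g = P207F.hTop g :=
      P207.ksEntropy_eq_of_locSymmetric hn hφ hμ hm hN hL
    refine ⟨h4, fun c hc => ?_⟩
    rw [hS h4]
    refine Eventually.frequently ?_
    filter_upwards [(h3.2.1 hL).eventually_lt_const hc] with T h5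
    have h6 : P207F.meanArea (P207F.stdB n) g T =
        (Real.exp (-(T * ∑ i, χ i)) * P207F.meanArea (P207F.stdB n) g T) *
          Real.exp (T * ∑ i, χ i) := by
      rw [mul_right_comm, ← Real.exp_add, neg_add_cancel, Real.exp_zero, one_mul]
    rw [h6]
    exact mul_lt_mul_of_pos_right h5 (Real.exp_pos _)
  · rintro ⟨h4, h5⟩
    by_contra hL
    obtain ⟨c, h6, h7⟩ := h3.2.2 hL
    have h8 := h5 c h6
    rw [hS h4] at h8
    obtain ⟨T, h9, h10⟩ := (h8.and_eventually h7).exists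
    exact absurd h9 (not_lt.2 h10)

theorem wrap_of (hMain : MainStmt) (hArea : AreaStmt) (hComp : CompStmt) (hConv : ConvStmt)
    (hFund : FundStmt) (hKy : KyStmt)
    (hEig : EigStmt) (hSys : SysGeoStmt) (hJac : JacGeoStmt) (hLoc : LocGeoStmt)
    (hUn : UniqGeoStmt)
    (n : ℕ) (hn : 3 ≤ n) (M : Type) [TopologicalSpace M] [CompactSpace M] [T2Space M]
    [ConnectedSpace M] [ChartedSpace (P207F.EV n) M] [IsManifold 𝓘(ℝ, P207F.EV n) ∞ M]
    [MeasurableSpace M] [BorelSpace M] :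
    (∀ g : RMetric (P207F.EV n) M, P207F.WellDefined (P207F.stdB n) g) ∧
    ∀ g : RMetric (P207F.EV n) M, P207F.NegCurvature g →
      ∃ χ : Fin (n - 1) → ℝ, IsLyap (P207F.stdB n) g χ ∧ (∀ i, 0 < χ i) ∧
        P207F.hLiou (P207F.stdB n) g ≤ ENNReal.ofReal (∑ i, χ i) ∧
        ENNReal.ofReal (∑ i, χ i) ≤ P207F.hTop g ∧
        SphereArea (P207F.stdB n) g χ ∧ AreaCriterion (P207F.stdB n) g χ := by
  refine ⟨fun g => P207F.wellDefined (by omega) g, fun g hN => ?_⟩
  obtain ⟨m, rfl⟩ : ∃ m, n = m + 1 := ⟨n - 1, by omega⟩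
  obtain ⟨χ, h1, h2, h3, h4, h5⟩ := final_of hMain hArea hComp hConv hFund hKy hEig hSys hJac hLoc
    hUn (by omega : 2 ≤ m) hN
  exact ⟨χ, h1, h2, h3, h4, h5, crit_of (by omega) hN h2 h3 h4 h5⟩

end Vale.Agent.P207.SPH
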